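import Vale.Agent.P022D.Rl.Defs
import Vale.Agent.P022D.CA.Jac
import Vale.Agent.P022D.CA.Dep

/-!
# P022: a point in characteristic zero lies on a component with a large special fibre
-/

set_option linter.all false

open MvPowerSeries IsLocalRing

noncomputable section

namespace Vale.Agent.P022D.Rl

namespace Ch0

theorem max_eq {σ O : Type} [Finite σ] [CommRing O] [IsLocalRing O] {π : O}
    (hπ : maximalIdeal O = Ideal.span {π}) : maximalIdeal (MvPowerSeries σ O) =
      Ideal.span (insert (C π) (Set.range X)) := by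
  apply le_antisymm
  · intro p hp
    have h1 : constantCoeff p ∈ maximalIdeal O := by
      by_contra hne
      rw [mem_maximalIdeal, mem_nonunits_iff, not_not] at hne
      exact (mem_maximalIdeal p).mp hp (isUnit_iff_constantCoeff.mpr hne)
    have h2 := Vale.Agent.P177.mem_span_X_of_constantCoeff_eq_zero
      (p - C (constantCoeff p)) (by simp)
    rw [hπ] at h1
    obtain ⟨a, ha⟩ := Ideal.mem_span_singleton'.1 h1
    have h3 : (C (constantCoeff p) : MvPowerSeries σ O) ∈
        Ideal.span (insert (C π) (Set.range X)) := by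
      rw [← ha, map_mul]
      exact Ideal.mul_mem_left _ _ (Ideal.subset_span (Set.mem_insert _ _))
    have h4 := Ideal.add_mem _ (Ideal.span_mono (Set.subset_insert (C π) _) h2) h3
    rwa [sub_add_cancel] at h4
  · rw [Ideal.span_le]
    rintro _ (rfl | ⟨i, rfl⟩)
    · rw [SetLike.mem_coe, mem_maximalIdeal, mem_nonunits_iff, isUnit_iff_constantCoeff,
        constantCoeff_C, ← mem_nonunits_iff, ← mem_maximalIdeal, hπ]
      exact Ideal.mem_span_singleton_self π
    · rw [SetLike.mem_coe, mem_maximalIdeal, mem_nonunits_iff, isUnit_iff_constantCoeff]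
      simp

theorem le_dim {A : Type} [CommRing A] (n : ℕ) [Nontrivial A] :
    ringKrullDim A + n ≤ ringKrullDim (MvPowerSeries (Fin n) A) := by
  induction n with
  | zero =>
    rw [ringKrullDim_eq_of_ringEquiv (MvPowerSeries.isEmptyEquiv (Fin 0) A).toRingEquiv]
    simp
  | succ n ih =>
    rw [ringKrullDim_eq_of_ringEquiv (MvPowerSeries.finSuccEquiv A n).toRingEquiv]
    refine le_trans ?_ ringKrullDim_succ_le_ringKrullDim_powerseries
    push_cast
    rw [← add_assoc]
    gcongr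

theorem reg {σ O : Type} [Fintype σ] [CommRing O] [IsDomain O] [IsDiscreteValuationRing O] {π : O}
    (hπ : maximalIdeal O = Ideal.span {π}) : IsRegularLocalRing (MvPowerSeries σ O) ∧
      ringKrullDim (MvPowerSeries σ O) = ((Fintype.card σ + 1 : ℕ) : WithBot ℕ∞) := by
  have h1 : (maximalIdeal (MvPowerSeries σ O)).spanFinrank ≤ Fintype.card σ + 1 := by
    rw [max_eq hπ]
    refine (Submodule.spanFinrank_span_le_ncard_of_finite
      ((Set.finite_range _).insert _)).trans ((Set.ncard_insert_le _ _).trans ?_)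
    rw [← Set.image_univ]
    refine Nat.add_le_add_right ((Set.ncard_image_le Set.finite_univ).trans ?_) 1
    rw [Set.ncard_univ, Nat.card_eq_fintype_card]
  have h3 : ((maximalIdeal (MvPowerSeries σ O)).spanFinrank : WithBot ℕ∞) ≤
      ((Fintype.card σ + 1 : ℕ) : WithBot ℕ∞) := by exact_mod_cast h1
  have hle : ((Fintype.card σ + 1 : ℕ) : WithBot ℕ∞) ≤ ringKrullDim (MvPowerSeries σ O) := by
    rw [ringKrullDim_eq_of_ringEquiv
      (MvPowerSeries.renameEquiv O (Fintype.equivFin σ)).toRingEquiv]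
    refine le_trans ?_ (le_dim (Fintype.card σ))
    rw [IsDiscreteValuationRing.ringKrullDim_eq_one, add_comm]
    push_cast
    exact le_rfl
  exact ⟨IsRegularLocalRing.of_spanFinrank_maximalIdeal_le _ (h3.trans hle),
    le_antisymm ((ringKrullDim_le_spanFinrank_maximalIdeal _).trans h3) hle⟩

theorem det_mem {A O' : Type} [CommRing A] [CommRing O'] [IsDomain O'] [CharZero O']
    (x : A →+* O') (𝔮 : Ideal A) (hp : 𝔮.IsPrime) (hq : 𝔮 ≤ RingHom.ker x)
    {Φ T : Matrix (Fin 2) (Fin 2) A} {m : ℕ} (hm : m ≠ 0) (h : Tame (m + 1) Φ T 𝔮)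
    (hΦ : IsUnit Φ.det) {c : A} (hc : c ^ m = 1) (hx : x (T.det - c) = 0) : T.det - c ∈ 𝔮 := by
  have e := congrArg Matrix.det h.quot
  simp only [Matrix.det_mul, Matrix.det_pow, ← RingHom.mapMatrix_apply, ← RingHom.map_det] at e
  rw [← map_pow, ← map_mul, ← map_mul, Ideal.Quotient.eq] at e
  have hz : x T.det = x c := by rwa [map_sub, sub_eq_zero] at hx
  have hc' : x c ^ m = 1 := by rw [← map_pow, hc, map_one]
  have hc0 : x c ≠ 0 := fun h0 => by
    rw [h0, zero_pow hm] at hc'
    exact zero_ne_one hc'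
  have e2 : Φ.det * (T.det * ((∑ i ∈ Finset.range m, T.det ^ i * c ^ (m - 1 - i)) *
      (T.det - c))) ∈ 𝔮 := by
    rw [geom_sum₂_mul, hc]
    have := 𝔮.neg_mem e
    convert this using 1
    ring
  rcases hp.mem_or_mem e2 with h1 | h1
  · exact absurd (Ideal.eq_top_of_isUnit_mem _ h1 hΦ) hp.ne_top
  rcases hp.mem_or_mem h1 with h2 | h2
  · exact absurd (hz ▸ RingHom.mem_ker.1 (hq h2)) hc0
  rcases hp.mem_or_mem h2 with h3 | h3
  · exfalso
    have h4 := RingHom.mem_ker.1 (hq h3)
    simp only [map_sum, map_mul, map_pow, hz] at h4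
    rw [geom_sum₂_self] at h4
    rcases mul_eq_zero.1 h4 with h5 | h5
    · exact hm (by exact_mod_cast h5)
    · exact hc0 (pow_eq_zero_iff' .. |>.1 h5).1
  · exact h3

end Ch0

theorem ch0 : CH0 := by
  intro O F σ β Γ τ ι _ _ _ _ _ _ _ _ _ D ψ π hD hπ0 hξ top htop O' _ _ _ x hx
  have hmax : maximalIdeal O = Ideal.span {π} := by
    rw [← hD.ker]
    exact (eq_maximalIdeal (RingHom.ker_isMaximal_of_surjective ψ hD.surj)).symm
  obtain ⟨hreg, hdim⟩ := Ch0.reg (σ := σ) hmax
  have hker : (RingHom.ker x).IsPrime := RingHom.ker_isPrime x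
  have h0 : D.I0 ≤ RingHom.ker x := le_sup_left.trans hx
  obtain ⟨𝔮, hq, hqx⟩ := Ideal.exists_minimalPrimes_le h0
  have hp : 𝔮.IsPrime := hq.1.1
  have hI0 : D.I0 ≤ 𝔮 := hq.1.2
  have hht : 𝔮.height ≤ ((Fintype.card (Σ b, ι b) + 4 * Fintype.card Γ : ℕ) : ℕ∞) := by
    unfold Dat.I0 at hq
    rw [← Ideal.span_union] at hq
    refine (Ideal.height_le_card_of_mem_minimalPrimes_span
      ((Set.finite_range _).union (Set.finite_range _)) hq).trans ?_
    refine Nat.cast_le.2 ((Set.ncard_union_le _ _).trans (Nat.add_le_add ?_ ?_))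
    · rw [← Set.image_univ]
      refine (Set.ncard_image_le Set.finite_univ).trans ?_
      rw [Set.ncard_univ, Nat.card_eq_fintype_card]
    · rw [← Set.image_univ]
      refine (Set.ncard_image_le Set.finite_univ).trans ?_
      rw [Set.ncard_univ, Nat.card_eq_fintype_card]
      simp only [Fintype.card_prod, Fintype.card_fin]
      omega
  obtain ⟨h, d, e1, e2, e3⟩ := Jac.dim_add_height hdim 𝔮
  rw [e1] at hht
  have hh : h ≤ Fintype.card (Σ b, ι b) + 4 * Fintype.card Γ := by exact_mod_cast hht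
  have hk : ((top + 1 : ℕ) : WithBot ℕ∞) ≤ ringKrullDim (MvPowerSeries σ O ⧸ 𝔮) := by
    rw [e2]
    exact_mod_cast (by omega : top + 1 ≤ d)
  have hπm : (C π : MvPowerSeries σ O) ∈ maximalIdeal (MvPowerSeries σ O) := by
    rw [Ch0.max_eq hmax]
    exact Ideal.subset_span (Set.mem_insert _ _)
  obtain ⟨η, hη, hle, hdη⟩ := CA.dimGE_prime (CA.dimGE_sup hπm hk)
  refine ⟨𝔮, η, hp, hη, sup_le hI0 ?_, hqx, hle, hdη⟩
  rw [Ideal.span_le]
  rintro _ ⟨γ, rfl⟩
  obtain ⟨u, hu⟩ := hD.odd γ
  have hT : Tame (2 ^ (D.a γ + 1) * (2 * u + 1) + 1) (D.Φ γ) (D.T γ) 𝔮 := by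
    rw [← hu]
    intro i j
    exact hI0 (Ideal.mem_sup_right (Ideal.subset_span ⟨(γ, i, j), rfl⟩))
  have hs : IsUnit (D.s γ) := by
    by_contra hs
    have h1 : D.s γ ∈ maximalIdeal O := hs
    rw [hmax, ← hD.ker] at h1
    exact hD.s_ne γ h1
  refine Ch0.det_mem x 𝔮 hp hqx (by positivity) hT ?_ ?_ ?_
  · rw [isUnit_iff_constantCoeff]
    simp [Dat.Φ, mP, Matrix.det_fin_two, hs]
  · have h1 := hξ γ
    rw [hu, Nat.add_sub_cancel] at h1
    rw [← map_pow, h1, map_one]
  · exact hx (Ideal.mem_sup_right (Ideal.subset_span ⟨γ, rfl⟩))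

end Vale.Agent.P022D.Rl
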