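import Vale.Agent.P022D.Rl.Loc
import Vale.Agent.P022D.Rl.Ch0
import Vale.Agent.P022D.As.Defs

/-!
# P022: the output of the local blocks in the form of the patching argument
-/

open MvPowerSeries

noncomputable section

namespace Vale.Agent.P022D.Rl

namespace Dat

variable {O σ β Γ : Type} {τ ι : β → Type} [CommRing O] (D : Dat O σ β Γ τ ι)

/-- all the equations as one family -/
def fam : (Σ b, ι b) ⊕ (Γ × Fin 2 × Fin 2) ⊕ Γ → MvPowerSeries σ O :=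
  Sum.elim (CA.eqs D.eg D.f) (Sum.elim
    (fun p => (D.Φ p.1 * D.T p.1 - D.T p.1 ^ D.l p.1 * D.Φ p.1) p.2.1 p.2.2)
    fun γ => (D.T γ).det - C (D.ξ γ))

theorem span_fam : Ideal.span (Set.range D.fam) = D.I := by
  rw [fam, Set.Sum.elim_range, Set.Sum.elim_range, Ideal.span_union, Ideal.span_union, I, I0,
    sup_assoc]

/-- the entries of `T - 1` -/
def tl (γ : Γ) : Set (MvPowerSeries σ O) :=
  Set.range fun p : Fin 2 × Fin 2 => (D.T γ - 1) p.1 p.2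

open Classical in
/-- the multiplicity of the type `J` -/
def mm [Fintype Γ] (J : Finset Γ) : ℕ :=
  ∏ γ, if γ ∈ J then 2 ^ D.a γ + 2 ^ D.a' γ else 2 ^ (D.a γ + 1)

theorem mem_ty [Fintype Γ] (η : Ideal (MvPowerSeries σ O)) (γ : Γ) :
    γ ∈ Core.ty D.tl η ↔ D.Ram η γ := by
  classical
  have h : γ ∈ Core.ty D.tl η ↔ ¬ D.tl γ ⊆ (η : Set (MvPowerSeries σ O)) := by
    unfold Core.ty
    exact (@Finset.mem_filter _ _ (_) _ _).trans (and_iff_right (Finset.mem_univ γ))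
  simp only [h, tl, Ram, Set.range_subset_iff, not_forall, Prod.exists, SetLike.mem_coe]

theorem mm_ty [Fintype Γ] (η : Ideal (MvPowerSeries σ O)) :
    D.mm (Core.ty D.tl η) = ∏ γ, D.m η γ := by
  refine Finset.prod_congr rfl fun γ _ => ?_
  rw [m]
  by_cases h : D.Ram η γ
  · rw [if_pos h, if_pos ((D.mem_ty η γ).2 h)]
  · rw [if_neg h, if_neg fun h1 => h ((D.mem_ty η γ).1 h1)]

end Dat

theorem charZero_of_coef (O : Type) [CommRing O] [IsDomain O] [IsDiscreteValuationRing O]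
    [h : Core.Coef O] : CharZero O := by
  obtain ⟨p, hp⟩ := CharP.exists O
  rcases CharP.char_is_prime_or_zero O p with h1 | rfl
  · exfalso
    rcases h1.eq_two_or_odd' with rfl | ⟨k, rfl⟩
    · exact h.ne (by exact_mod_cast CharP.cast_eq_zero O 2)
    · have h2 := CharP.cast_eq_zero O (2 * k + 1)
      have h3 : (1 : O) = 2 * (-k) := by
        push_cast at h2
        linear_combination h2
      exact (IsLocalRing.maximalIdeal.isMaximal O).ne_top ((Ideal.eq_top_iff_one _).2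
        (h3 ▸ Ideal.mul_mem_right _ _ h.two))
  · exact CharP.charP_to_charZero O

theorem asLoc {O F σ β Γ Wd : Type} {τ ι : β → Type} [CommRing O] [IsDomain O]
    [IsDiscreteValuationRing O] [Core.Coef O] [Field F] [CharP F 2] [Fintype σ] [Fintype β]
    [Fintype Γ] [∀ b, Fintype (τ b)] [∀ b, Fintype (ι b)] (D : Dat O σ β Γ τ ι) (ψ : O →+* F)
    (ϖ : O) (hD : D.Ok ψ ϖ) (hϖ : ϖ ≠ 0) (hξ : ∀ γ, D.ξ γ ^ (D.l γ - 1) = 1) {r a : ℕ}
    (X : As.CD O σ ((Σ b, ι b) ⊕ (Γ × Fin 2 × Fin 2) ⊕ Γ) Γ Wd r a) (hf : X.f = D.fam)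
    (hτ : X.τl = D.tl) (hDl : ∀ γ, X.Dl γ = (D.Φ γ).trace) (hm : ∀ J, D.mm J ≤ X.m J)
    (hc : 2 * r + a + 2 + Fintype.card (Σ b, ι b) + 4 * Fintype.card Γ = Fintype.card σ)
    (hx : D.I ≤ RingHom.ker (X.x.comp (Core.io O σ r))) : X.Loc ϖ := by
  have := charZero_of_coef O
  obtain ⟨top, htop, h⟩ := loc O F σ β Γ τ ι D ψ ϖ hD
  obtain rfl : top = 2 * r + a + 2 := by omega
  have hI : Core.I0 ϖ X.f = D.I ⊔ Ideal.span {C ϖ} := by rw [Core.I0, hf, Dat.span_fam]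
  refine ⟨fun η η' hη hη' h1 h2 h3 h4 h5 => ?_, fun η hη h1 h3 => ?_,
    fun η hη h1 h3 γ hγ => ?_, ?_⟩
  · rw [hI] at h1 h2
    refine ((h η h1).2 h3).1 η' h2 h4 fun γ => ?_
    rw [← D.mem_ty, ← D.mem_ty, ← hτ, h5]
  · rw [hI] at h1 ⊢
    refine ((h η h1).2 h3).2.1.trans ?_
    rw [← D.mm_ty, hτ]
    exact_mod_cast hm _
  · rw [hI] at h1
    rw [hDl]
    refine ((h η h1).2 h3).2.2 γ ?_
    rwa [← D.mem_ty, ← hτ]
  · rw [hf, Dat.span_fam]
    exact ch0 O F σ β Γ τ ι D ψ ϖ hD hϖ hξ _ htop O _ hx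

end Vale.Agent.P022D.Rl
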