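import Vale.Agent.P022D.Rl.Mat

/-!
# P022: upper bounds for lengths along the tame relation
-/

namespace Vale.Agent.P022D.Rl

open Matrix IsLocalRing

variable {B : Type*} [CommRing B]

/-- the tame relation holds modulo `d` -/
def Tame (l : ℕ) (Φ T : Matrix (Fin 2) (Fin 2) B) (d : Ideal B) : Prop :=
  ∀ i j, (Φ * T - T ^ l * Φ) i j ∈ d

theorem Tame.mono {l : ℕ} {Φ T : Matrix (Fin 2) (Fin 2) B} {d d' : Ideal B} (h : Tame l Φ T d)
    (hd : d ≤ d') : Tame l Φ T d' := fun i j => hd (h i j)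

theorem Tame.map {B' : Type*} [CommRing B'] (f : B →+* B') {l : ℕ}
    {Φ T : Matrix (Fin 2) (Fin 2) B} {d : Ideal B} (h : Tame l Φ T d) :
    Tame l (Φ.map f) (T.map f) (d.map f) := by
  intro i j
  have e : Φ.map f * T.map f - T.map f ^ l * Φ.map f = (Φ * T - T ^ l * Φ).map f := by
    simp only [← RingHom.mapMatrix_apply, map_sub, map_mul, map_pow]
  rw [e]
  exact Ideal.mem_map_of_mem f (h i j)

theorem Tame.quot {l : ℕ} {Φ T : Matrix (Fin 2) (Fin 2) B} {d : Ideal B} (h : Tame l Φ T d) :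
    Φ.map (Ideal.Quotient.mk d) * T.map (Ideal.Quotient.mk d) =
      T.map (Ideal.Quotient.mk d) ^ l * Φ.map (Ideal.Quotient.mk d) := by
  rw [← sub_eq_zero]
  ext i j
  have := h.map (Ideal.Quotient.mk d) i j
  rwa [Ideal.map_quotient_self, Ideal.mem_bot] at this

theorem two_quot (h2 : (2 : B) = 0) (d : Ideal B) : (2 : B ⧸ d) = 0 := by
  rw [← map_ofNat (Ideal.Quotient.mk d) 2, h2, map_zero]

theorem det_quot (T : Matrix (Fin 2) (Fin 2) B) {d : Ideal B} (h : T.det - 1 ∈ d) :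
    (T.map (Ideal.Quotient.mk d)).det = 1 := by
  rw [← RingHom.mapMatrix_apply, ← RingHom.map_det, ← map_one (Ideal.Quotient.mk d),
    Ideal.Quotient.eq]
  exact h

theorem tr_quot (T : Matrix (Fin 2) (Fin 2) B) (d : Ideal B) :
    (T.map (Ideal.Quotient.mk d)).trace = Ideal.Quotient.mk d T.trace := by
  simp [trace_fin_two]

theorem unit_one_add [IsLocalRing B] {t : B} (ht : t ∈ maximalIdeal B) (w : B) :
    IsUnit (1 + t * w) := by
  by_contra h
  have h1 : 1 + t * w ∈ maximalIdeal B := h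
  have h2 := (maximalIdeal B).sub_mem h1 (Ideal.mul_mem_right w _ ht)
  rw [add_sub_cancel_right] at h2
  exact (maximalIdeal.isMaximal B).ne_top ((Ideal.eq_top_iff_one _).2 h2)

theorem add_pow_two_pow (h2 : (2 : B) = 0) (x y : B) (a : ℕ) :
    (x + y) ^ 2 ^ a = x ^ 2 ^ a + y ^ 2 ^ a := by
  induction a with
  | zero => simp
  | succ a ih =>
    rw [pow_succ, pow_mul, ih, pow_mul, pow_mul]
    linear_combination (x ^ 2 ^ a * y ^ 2 ^ a) * h2

theorem one_add_pow_odd (h2 : (2 : B) = 0) (x : B) (u : ℕ) :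
    ∃ w, (1 + x) ^ (2 * u + 1) = 1 + x * (1 + x * w) := by
  obtain ⟨w, hw⟩ := one_add_pow (x * x) 1 u
  have e : (1 + x) ^ 2 = 1 + x * x * 1 := by linear_combination x * h2
  exact ⟨w + x * w, by rw [pow_succ, pow_mul, e, hw]; ring⟩

/-- the determinant of the tame generator is unipotent -/
theorem det_nil [IsLocalRing B] (h2 : (2 : B) = 0) {Φ T : Matrix (Fin 2) (Fin 2) B}
    (hΦ : IsUnit Φ.det) (hT : T.det - 1 ∈ maximalIdeal B) {l a u : ℕ}
    (hl : l = 2 ^ (a + 1) * (2 * u + 1) + 1) {d : Ideal B} (h : Tame l Φ T d) :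
    (T.det - 1) ^ 2 ^ (a + 1) ∈ d := by
  have e := congrArg Matrix.det h.quot
  simp only [det_mul, det_pow, ← RingHom.mapMatrix_apply, ← RingHom.map_det] at e
  rw [← map_pow, ← map_mul, ← map_mul, Ideal.Quotient.eq] at e
  obtain ⟨w, hw⟩ := one_add_pow_odd h2 ((T.det - 1) ^ 2 ^ (a + 1)) u
  have e1 : T.det ^ 2 ^ (a + 1) = 1 + (T.det - 1) ^ 2 ^ (a + 1) := by
    have := add_pow_two_pow h2 1 (T.det - 1) (a + 1)
    rwa [add_sub_cancel, one_pow] at this
  have hu : IsUnit T.det := by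
    have := unit_one_add hT 1
    rwa [mul_one, add_sub_cancel] at this
  have hx : (T.det - 1) ^ 2 ^ (a + 1) ∈ maximalIdeal B :=
    Ideal.pow_mem_of_mem _ hT _ (by positivity)
  rw [hl, pow_succ T.det, pow_mul, e1, hw] at e
  have e2 : (T.det - 1) ^ 2 ^ (a + 1) *
      ((1 + (T.det - 1) ^ 2 ^ (a + 1) * w) * (T.det * Φ.det)) ∈ d := by
    have := d.neg_mem e
    convert this using 1
    ring
  exact (Ideal.mul_unit_mem_iff_mem d ((unit_one_add hx w).mul (hu.mul hΦ))).1 e2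

/-- the trace of the tame generator is nilpotent -/
theorem tr_mem [IsLocalRing B] (h2 : (2 : B) = 0) {Φ T : Matrix (Fin 2) (Fin 2) B}
    (hΦ : IsUnit Φ.det) (hT : T.trace ∈ maximalIdeal B) {l a b u v : ℕ}
    (hl : l = 2 ^ (a + 1) * (2 * u + 1) + 1) (hl' : l + 1 = 2 ^ (b + 1) * (2 * v + 1))
    {d : Ideal B} (h : Tame l Φ T d) (hd : T.det - 1 ∈ d) :
    T.trace ^ (2 ^ a + 2 ^ b) ∈ d := by
  obtain ⟨w, hw⟩ := tr_nil (two_quot h2 d) _ _ (det_quot T hd) (by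
    rw [← RingHom.mapMatrix_apply, ← RingHom.map_det]
    exact hΦ.map _) hl hl' h.quot
  obtain ⟨w, rfl⟩ := Ideal.Quotient.mk_surjective w
  rw [tr_quot, ← map_mul, ← map_one (Ideal.Quotient.mk d), ← map_add, ← map_pow, ← map_mul,
    Ideal.Quotient.eq_zero_iff_mem] at hw
  exact (Ideal.mul_unit_mem_iff_mem d (unit_one_add hT w)).1 hw

/-- when the trace vanishes the two matrices commute -/
theorem comm_mem (h2 : (2 : B) = 0) {Φ T : Matrix (Fin 2) (Fin 2) B} {l a u : ℕ}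
    (hl : l = 2 ^ (a + 1) * (2 * u + 1) + 1) {d : Ideal B} (h : Tame l Φ T d)
    (hd : T.det - 1 ∈ d) (ht : T.trace ^ 2 ^ a ∈ d) (i j : Fin 2) : (Φ * T - T * Φ) i j ∈ d := by
  obtain ⟨w, k, hw⟩ := comm_eq (two_quot h2 d) _ _ (det_quot T hd) hl h.quot
  rw [tr_quot, ← map_pow, Ideal.Quotient.eq_zero_iff_mem.2 ht, zero_mul, zero_smul] at hw
  have e : (Φ * T - T * Φ).map (Ideal.Quotient.mk d) = 0 := by
    rw [← hw]
    simp only [← RingHom.mapMatrix_apply, map_sub, map_mul]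
  exact Ideal.Quotient.eq_zero_iff_mem.1 (congrFun (congrFun e i) j)

/-- at an unramified point with distinct Frobenius eigenvalues the order of the trace is smaller -/
theorem tr_mem_unr [IsLocalRing B] (h2 : (2 : B) = 0) {Φ T : Matrix (Fin 2) (Fin 2) B}
    (hΦ : IsUnit Φ.trace) (hT : ∀ i j, (T - 1) i j ∈ maximalIdeal B) {l a u : ℕ}
    (hl : l = 2 ^ (a + 1) * (2 * u + 1) + 1) {d : Ideal B} (h : Tame l Φ T d)
    (hd : T.det - 1 ∈ d) : T.trace ^ 2 ^ a ∈ d := by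
  obtain ⟨w, k, hw⟩ := comm_eq (two_quot h2 d) _ _ (det_quot T hd) hl h.quot
  obtain ⟨w, rfl⟩ := Ideal.Quotient.mk_surjective w
  have e := congrArg Matrix.trace hw
  have e1 : T.map (Ideal.Quotient.mk d) ^ k * Φ.map (Ideal.Quotient.mk d) =
      (T ^ k * Φ).map (Ideal.Quotient.mk d) := by
    simp only [← RingHom.mapMatrix_apply, map_pow, map_mul]
  rw [trace_sub, trace_mul_comm, sub_self, trace_smul, e1, tr_quot, tr_quot, smul_eq_mul,
    ← map_mul, ← map_one (Ideal.Quotient.mk d), ← map_add, ← map_pow, ← map_mul, ← map_mul,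
    eq_comm, Ideal.Quotient.eq_zero_iff_mem, mul_assoc] at e
  have ht : T.trace ∈ maximalIdeal B := by
    have e2 : T.trace = (T - 1) 0 0 + (T - 1) 1 1 := by
      simp only [trace_fin_two, Matrix.sub_apply, one_apply_eq]
      linear_combination h2
    rw [e2]
    exact Ideal.add_mem _ (hT 0 0) (hT 1 1)
  have hu : IsUnit (T ^ k * Φ).trace := by
    by_contra hn
    have h3 := (maximalIdeal B).sub_mem hn (tr_pow_mul _ Φ T hT k)
    rw [sub_sub_cancel] at h3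
    exact h3 hΦ
  exact (Ideal.mul_unit_mem_iff_mem d ((unit_one_add ht w).mul hu)).1 e

/-- the equations of the unramified component -/
def eqU (T : Matrix (Fin 2) (Fin 2) B) : Fin 4 → B := ![T 0 0 - 1, T 0 1, T 1 0, T 1 1 - 1]

/-- the equations of the ramified component -/
def eqN (Φ T : Matrix (Fin 2) (Fin 2) B) : Fin 4 → B :=
  ![T 0 0 + T 1 1, Φ 0 0 + Φ 1 1, (T 0 0 - 1) ^ 2 + T 0 1 * T 1 0, Φ 0 1 * T 1 0 + Φ 1 0 * T 0 1]

theorem eqN_mem (h2 : (2 : B) = 0) {Φ T : Matrix (Fin 2) (Fin 2) B} {l a u : ℕ}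
    (hl : l = 2 ^ (a + 1) * (2 * u + 1) + 1) {d : Ideal B} (h : Tame l Φ T d)
    (hd : T.det - 1 ∈ d) (ht : T.trace ∈ d)
    (hn : ∀ x, T 0 1 * x ∈ d → T 1 0 * x ∈ d → x ∈ d) (i : Fin 4) : eqN Φ T i ∈ d := by
  have hc := comm_mem h2 hl h hd (Ideal.pow_mem_of_mem _ ht _ (by positivity))
  have c00 := hc 0 0
  have c01 := hc 0 1
  have c10 := hc 1 0
  simp only [Matrix.sub_apply, mul_apply, Fin.sum_univ_two] at c00 c01 c10
  rw [trace_fin_two] at ht
  rw [det_fin_two] at hd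
  fin_cases i
  · exact ht
  · refine hn (Φ 0 0 + Φ 1 1) ?_ ?_
    · convert d.add_mem c01 (d.mul_mem_left (Φ 0 1) ht) using 1
      linear_combination (T 0 1 * Φ 1 1 - Φ 0 1 * T 1 1) * h2
    · convert d.add_mem c10 (d.mul_mem_left (Φ 1 0) ht) using 1
      linear_combination (T 1 0 * Φ 0 0 - Φ 1 0 * T 0 0) * h2
  · change (T 0 0 - 1) ^ 2 + T 0 1 * T 1 0 ∈ d
    convert d.add_mem hd (d.mul_mem_left (T 0 0) ht) using 1
    linear_combination (1 - T 0 0 + T 0 1 * T 1 0 - T 0 0 * T 1 1) * h2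
  · change Φ 0 1 * T 1 0 + Φ 1 0 * T 0 1 ∈ d
    convert c00 using 1
    linear_combination (Φ 1 0 * T 0 1) * h2

theorem lenN (h2 : (2 : B) = 0) {Φ T : Matrix (Fin 2) (Fin 2) B} {l a u m : ℕ}
    (hl : l = 2 ^ (a + 1) * (2 * u + 1) + 1) {d : Ideal B} (h : Tame l Φ T d)
    (hd : T.det - 1 ∈ d) (ht : T.trace ^ m ∈ d) (hn : IsUnit (T 0 1) ∨ IsUnit (T 1 0)) :
    Module.length B (B ⧸ d) ≤
      m * Module.length B (B ⧸ (d ⊔ Ideal.span (Set.range (eqN Φ T)))) := by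
  refine (len_nil T.trace m d ht).trans ?_
  have h1 : d ⊔ Ideal.span (Set.range (eqN Φ T)) ≤ d ⊔ Ideal.span {T.trace} := by
    refine sup_le le_sup_left (Ideal.span_le.2 ?_)
    rintro _ ⟨i, rfl⟩
    refine eqN_mem h2 hl (h.mono le_sup_left) (Ideal.mem_sup_left hd)
      (Ideal.mem_sup_right (Ideal.mem_span_singleton_self _)) (fun x h1 h2 => ?_) i
    rcases hn with hn | hn
    · exact (Ideal.unit_mul_mem_iff_mem _ hn).1 h1
    · exact (Ideal.unit_mul_mem_iff_mem _ hn).1 h2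
  have := len_mono h1
  gcongr

theorem lenU [IsLocalRing B] (h2 : (2 : B) = 0) {Φ T : Matrix (Fin 2) (Fin 2) B}
    (hΦ : IsUnit Φ.trace) (hT : ∀ i j, (T - 1) i j ∈ maximalIdeal B) {l a u : ℕ}
    (hl : l = 2 ^ (a + 1) * (2 * u + 1) + 1) {d : Ideal B} (h : Tame l Φ T d)
    (hd : T.det - 1 ∈ d) :
    Module.length B (B ⧸ d) ≤
      (2 ^ (a + 1) : ℕ) * Module.length B (B ⧸ (d ⊔ Ideal.span (Set.range (eqU T)))) := by
  have ht := tr_mem_unr h2 hΦ hT hl h hd
  have hc := comm_mem h2 hl h hd ht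
  have c01 := hc 0 1
  have c10 := hc 1 0
  simp only [Matrix.sub_apply, mul_apply, Fin.sum_univ_two] at c01 c10
  set d1 := d ⊔ Ideal.span {T.trace} with hd1
  have t1 : T 0 0 + T 1 1 ∈ d1 := by
    rw [← trace_fin_two]
    exact Ideal.mem_sup_right (Ideal.mem_span_singleton_self _)
  have hle : d ≤ d1 := le_sup_left
  rw [trace_fin_two] at hΦ
  rw [det_fin_two] at hd
  have n1 : T 0 1 ∈ d1 := by
    refine (Ideal.mul_unit_mem_iff_mem _ hΦ).1 ?_
    convert d1.add_mem (hle c01) (d1.mul_mem_left (Φ 0 1) t1) using 1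
    linear_combination (T 0 1 * Φ 1 1 - Φ 0 1 * T 1 1) * h2
  have n2 : T 1 0 ∈ d1 := by
    refine (Ideal.mul_unit_mem_iff_mem _ hΦ).1 ?_
    convert d1.add_mem (hle c10) (d1.mul_mem_left (Φ 1 0) t1) using 1
    linear_combination (T 1 0 * Φ 0 0 - Φ 1 0 * T 0 0) * h2
  have n3 : (T 0 0 - 1) ^ 2 ∈ d1 := by
    convert d1.add_mem (d1.add_mem (hle hd) (d1.mul_mem_left (T 0 0) t1))
      (d1.mul_mem_left (T 0 1) n2) using 1
    linear_combination (1 - T 0 0 - T 0 0 * T 1 1) * h2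
  have h1 : d ⊔ Ideal.span (Set.range (eqU T)) ≤ d1 ⊔ Ideal.span {T 0 0 - 1} := by
    refine sup_le (hle.trans le_sup_left) (Ideal.span_le.2 ?_)
    have x0 : T 0 0 - 1 ∈ d1 ⊔ Ideal.span {T 0 0 - 1} :=
      Ideal.mem_sup_right (Ideal.mem_span_singleton_self _)
    rintro _ ⟨i, rfl⟩
    fin_cases i
    · exact x0
    · exact Ideal.mem_sup_left n1
    · exact Ideal.mem_sup_left n2
    · change T 1 1 - 1 ∈ d1 ⊔ Ideal.span {T 0 0 - 1}
      convert Ideal.sub_mem _ (Ideal.mem_sup_left t1) x0 using 1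
      linear_combination -h2
  have h3 := len_mono h1
  have h4 := len_nil (T 0 0 - 1) 2 d1 n3
  refine (len_nil T.trace _ d ht).trans ?_
  rw [pow_succ, Nat.cast_mul, mul_assoc]
  gcongr
  exact h4.trans (by gcongr)

end Vale.Agent.P022D.Rl
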