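import Vale.Agent.P022D.CA.BlkDefs
import Vale.Agent.P022D.PA.Defs
import Vale.Agent.P022D.Rl.Up

/-!
# P022: the ring of all local coordinates, definitions and statements
-/

open MvPowerSeries

noncomputable section

namespace Vale.Agent.P022D.Rl

/-- the universal Frobenius matrix around `!![s, b; 0, s]` -/
def mP {R σ : Type} [CommRing R] (x : Fin 8 → σ) (s b : R) :
    Matrix (Fin 2) (Fin 2) (MvPowerSeries σ R) :=
  !![C s + X (x 0), C b + X (x 1); X (x 2), C s + X (x 3)]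

/-- the universal tame matrix around `!![1, n; 0, 1]` -/
def mT {R σ : Type} [CommRing R] (x : Fin 8 → σ) (n : R) :
    Matrix (Fin 2) (Fin 2) (MvPowerSeries σ R) :=
  !![1 + X (x 4), C n + X (x 5); X (x 6), 1 + X (x 7)]

/-- the equations of the cover of the ramified component -/
def eN0 {R σ : Type} [CommRing R] (x : Fin 8 → σ) (b n : R) : Fin 4 → MvPowerSeries σ R :=
  ![X (x 4), X (x 7), X (x 0) + X (x 3),
    (C b + X (x 1)) * X (x 6) + X (x 2) * (C n + X (x 5))]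

/-- good blocks `β` with equations `f`, and tame blocks `Γ` with eight variables each -/
structure Dat (O σ β Γ : Type) (τ ι : β → Type) [CommRing O] where
  e : (Σ b, τ b) ⊕ (Γ × Fin 8) ↪ σ
  f : ∀ b, ι b → MvPowerSeries (τ b) O
  s : Γ → O
  b : Γ → O
  n : Γ → O
  ξ : Γ → O
  l : Γ → ℕ
  a : Γ → ℕ
  a' : Γ → ℕ

namespace Dat

variable {O σ β Γ : Type} {τ ι : β → Type} [CommRing O] (D : Dat O σ β Γ τ ι)

/-- the variables of the good blocks -/
def eg : (Σ b, τ b) ↪ σ := Function.Embedding.inl.trans D.e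

/-- the variables of a tame block -/
def x (γ : Γ) (i : Fin 8) : σ := D.e (Sum.inr (γ, i))

def Φ (γ : Γ) : Matrix (Fin 2) (Fin 2) (MvPowerSeries σ O) := mP (D.x γ) (D.s γ) (D.b γ)

def T (γ : Γ) : Matrix (Fin 2) (Fin 2) (MvPowerSeries σ O) := mT (D.x γ) (D.n γ)

/-- the equations of the good blocks and the tame relations -/
def I0 : Ideal (MvPowerSeries σ O) :=
  Ideal.span (Set.range (CA.eqs D.eg D.f)) ⊔ Ideal.span (Set.range fun p : Γ × Fin 2 × Fin 2 =>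
    (D.Φ p.1 * D.T p.1 - D.T p.1 ^ D.l p.1 * D.Φ p.1) p.2.1 p.2.2)

/-- all the equations -/
def I : Ideal (MvPowerSeries σ O) :=
  D.I0 ⊔ Ideal.span (Set.range fun γ => (D.T γ).det - C (D.ξ γ))

/-- ramified at `γ` modulo `η` -/
def Ram (η : Ideal (MvPowerSeries σ O)) (γ : Γ) : Prop := ∃ i j, (D.T γ - 1) i j ∉ η

open Classical in
/-- the local multiplicity -/
def m (η : Ideal (MvPowerSeries σ O)) (γ : Γ) : ℕ :=
  if D.Ram η γ then 2 ^ D.a γ + 2 ^ D.a' γ else 2 ^ (D.a γ + 1)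

/-- the hypotheses on the data -/
structure Ok {F : Type} [Field F] [∀ b, Fintype (τ b)] [∀ b, Fintype (ι b)] (ψ : O →+* F)
    (π : O) : Prop where
  surj : Function.Surjective ψ
  ker : RingHom.ker ψ = Ideal.span {π}
  const : ∀ b i, ψ (constantCoeff (D.f b i)) = 0
  blk : ∀ b, CA.BlkPt fun i => MvPowerSeries.map ψ (D.f b i)
  s_ne : ∀ γ, ψ (D.s γ) ≠ 0
  xi : ∀ γ, ψ (D.ξ γ) = 1
  odd : ∀ γ, ∃ u, D.l γ = 2 ^ (D.a γ + 1) * (2 * u + 1) + 1
  odd' : ∀ γ, ∃ v, D.l γ + 1 = 2 ^ (D.a' γ + 1) * (2 * v + 1)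

end Dat

/-- the special fibre: dimension, uniqueness of the large primes of a given type, lengths -/
def LOC : Prop := ∀ (O F σ β Γ : Type) (τ ι : β → Type) [CommRing O] [Field F] [CharP F 2]
  [Fintype σ] [Fintype β] [Fintype Γ] [∀ b, Fintype (τ b)] [∀ b, Fintype (ι b)]
  (D : Dat O σ β Γ τ ι) (ψ : O →+* F) (π : O), D.Ok ψ π →
  ∃ top : ℕ, top + Fintype.card (Σ b, ι b) + 4 * Fintype.card Γ = Fintype.card σ ∧
    ∀ (η : Ideal (MvPowerSeries σ O)) [η.IsPrime], D.I ⊔ Ideal.span {C π} ≤ η →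
      ringKrullDim (MvPowerSeries σ O ⧸ η) ≤ top ∧
      ((top : WithBot ℕ∞) ≤ ringKrullDim (MvPowerSeries σ O ⧸ η) →
        (∀ (η' : Ideal (MvPowerSeries σ O)) [η'.IsPrime], D.I ⊔ Ideal.span {C π} ≤ η' →
          (top : WithBot ℕ∞) ≤ ringKrullDim (MvPowerSeries σ O ⧸ η') →
          (∀ γ, D.Ram η γ ↔ D.Ram η' γ) → η = η') ∧
        PA.ln η (MvPowerSeries σ O ⧸ (D.I ⊔ Ideal.span {C π})) ≤ (∏ γ, D.m η γ : ℕ) ∧
        ∀ γ, ¬ D.Ram η γ → (D.Φ γ).trace ∉ η)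

/-- a point in characteristic zero lies on a component whose special fibre is large -/
def CH0 : Prop := ∀ (O F σ β Γ : Type) (τ ι : β → Type) [CommRing O] [IsDomain O]
  [IsDiscreteValuationRing O] [Field F] [Fintype σ] [Fintype β] [Fintype Γ]
  [∀ b, Fintype (τ b)] [∀ b, Fintype (ι b)]
  (D : Dat O σ β Γ τ ι) (ψ : O →+* F) (π : O), D.Ok ψ π → π ≠ 0 →
  (∀ γ, D.ξ γ ^ (D.l γ - 1) = 1) → ∀ top : ℕ,
  top + Fintype.card (Σ b, ι b) + 4 * Fintype.card Γ = Fintype.card σ →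
  ∀ (O' : Type) [CommRing O'] [IsDomain O'] [CharZero O'] (x : MvPowerSeries σ O →+* O'),
    D.I ≤ RingHom.ker x → ∃ 𝔮 η : Ideal (MvPowerSeries σ O), 𝔮.IsPrime ∧ η.IsPrime ∧ D.I ≤ 𝔮 ∧
      𝔮 ≤ RingHom.ker x ∧ 𝔮 ⊔ Ideal.span {C π} ≤ η ∧
      (top : WithBot ℕ∞) ≤ ringKrullDim (MvPowerSeries σ O ⧸ η)

/-- the unramified block and the cover of the ramified block satisfy the dichotomy -/
def BLK : Prop := ∀ (F : Type) [Field F] [CharP F 2] (b n : F),
  CA.BlkPt (eqU (mT (id : Fin 8 → Fin 8) n)) ∧ CA.BlkPt (eN0 (id : Fin 8 → Fin 8) b n)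

/-- the Jacobian rows of the ramified block are independent where `T` is not diagonal -/
def ROW : Prop := ∀ (F : Type) [Field F] [CharP F 2] (s b n : F) (K : Type) [Field K]
  (φ : MvPowerSeries (Fin 8) F →+* K), (φ (C n + X 5) ≠ 0 ∨ φ (X 6) ≠ 0) →
  ∀ l : Fin 4 → K, (∀ t, ∑ i, l i *
    φ (pderiv F t (eqN (mP (id : Fin 8 → Fin 8) s b) (mT (id : Fin 8 → Fin 8) n) i)) = 0) →
    ∀ i, l i = 0

end Vale.Agent.P022D.Rl
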