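import Vale.Agent.P022D.Rl.Defs
import Vale.Agent.P022D.CA.BlkInf

/-!
# P022: the Jacobian rows of the tame blocks
-/

open IsLocalRing MvPowerSeries

noncomputable section

namespace Vale.Agent.P022D.Rl

theorem blk : BLK := by
  intro F _ _ b n
  refine ⟨fun B _ _ _ _ _ φ _ hX _ hf K _ _ _ => Or.inl fun l hl i => ?_,
    fun B _ _ _ _ _ φ _ hX _ hf K _ _ _ => ?_⟩
  · have h4 := hl 4
    have h5 := hl 5
    have h6 := hl 6
    have h7 := hl 7
    simp [Fin.sum_univ_four, eqU, mT, pderiv_X_of_ne] at h4 h5 h6 h7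
    fin_cases i
    exacts [h4, h5, h6, h7]
  by_cases hs : φ (X 6) = 0 ∧ φ (C b + X 1) = 0 ∧ φ (C n + X 5) = 0 ∧ φ (X 2) = 0
  · refine Or.inr ⟨{algebraMap B K (φ (X 0))}, by simp, fun D hD t => ?_⟩
    have h0 := hD _ (Finset.mem_singleton_self _)
    have h1 : φ (X 1) = 0 := CA.const_zero (φ.comp C) (hX 1) (by simpa using hs.2.1)
    have h5 : φ (X 5) = 0 := CA.const_zero (φ.comp C) (hX 5) (by simpa using hs.2.2.1)
    have h3 : φ (X 3) = -φ (X 0) := eq_neg_of_add_eq_zero_right (by simpa [eN0] using hf 2)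
    have z : ∀ t, φ (X t) = 0 → D (algebraMap B K (φ (X t))) = 0 := fun t h => by
      rw [h, map_zero, map_zero]
    fin_cases t
    · exact h0
    · exact z 1 h1
    · exact z 2 hs.2.2.2
    · show D (algebraMap B K (φ (X 3))) = 0
      rw [h3, map_neg, map_neg, h0, neg_zero]
    · exact z 4 (hf 0)
    · exact z 5 h5
    · exact z 6 hs.1
    · exact z 7 (hf 1)
  refine Or.inl fun l hl i => ?_
  have h4 := hl 4
  have h7 := hl 7
  have h0 := hl 0
  have h1 := hl 1
  have h6 := hl 6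
  have h2 := hl 2
  have h5 := hl 5
  simp [Fin.sum_univ_four, eN0, Derivation.leibniz, pderiv_X_of_ne] at h4 h7 h0 h1 h6 h2 h5
  simp only [← map_add, IsFractionRing.to_map_eq_zero_iff] at h6 h2
  have h3 : l 3 = 0 := by
    by_contra ne
    exact hs ⟨h1.resolve_left ne, h6.resolve_left ne, h2.resolve_left ne, h5.resolve_left ne⟩
  fin_cases i
  exacts [h4, h7, h0, h3]

theorem row : ROW := by
  intro F _ _ s b n K _ φ h l hl i
  have h7 := hl 7
  have h0 := hl 0
  have h1 := hl 1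
  have h2 := hl 2
  have h5 := hl 5
  have h6 := hl 6
  simp [Fin.sum_univ_four, eqN, mP, mT, Derivation.leibniz, Derivation.leibniz_pow,
    pderiv_X_of_ne] at h7 h0 h1 h2 h5 h6
  rw [map_add] at h
  have h3 : l 3 = 0 := h.elim h2.resolve_right h1.resolve_right
  rw [h3, zero_mul, add_zero, mul_eq_zero] at h5 h6
  have h4 : l 2 = 0 := h.elim h6.resolve_right h5.resolve_right
  fin_cases i
  exacts [h7, h0, h4, h3]

end Vale.Agent.P022D.Rl
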