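import Vale.Agent.P022D.CA.PtBlk

/-!
# P022: substitutions and the Frobenius trick
-/

open IsLocalRing MvPowerSeries

namespace Vale.Agent.P022D.Rl

section ps

variable {F σ : Type} [Field F] [Fintype σ]

theorem ext_loc {B : Type} [CommRing B] [IsLocalRing B] [IsNoetherianRing B]
    (f g : MvPowerSeries σ F →+* B) (hC : ∀ a, f (C a) = g (C a)) (hX : ∀ i, f (X i) = g (X i))
    (hm : ∀ i, f (X i) ∈ maximalIdeal B) (h : MvPowerSeries σ F) : f h = g h := by
  have key : ∀ (k : ℕ) (h : MvPowerSeries σ F), f h - g h ∈ maximalIdeal B ^ k := by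
    intro k
    induction k with
    | zero => simp
    | succ k ih =>
      intro h
      have h1 : h - C (constantCoeff h) ∈ Ideal.span (Set.range (X : σ → MvPowerSeries σ F)) := by
        rw [← Vale.Agent.P177.mvPowerSeries_maximalIdeal]
        exact CA.mem_max_power.2 (by simp)
      obtain ⟨c, hc⟩ := Ideal.mem_span_range_iff_exists_fun.1 h1
      have h2 : h = C (constantCoeff h) + ∑ i, c i * X i := by rw [hc]; ring
      rw [h2, map_add, map_add, hC, add_sub_add_left_eq_sub, map_sum, map_sum,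
        ← Finset.sum_sub_distrib]
      refine Ideal.sum_mem _ fun i _ => ?_
      rw [map_mul, map_mul, ← hX, ← sub_mul, pow_succ]
      exact Ideal.mul_mem_mul (ih _) (hm i)
  have h3 : f h - g h ∈ ⨅ k : ℕ, maximalIdeal B ^ k := Ideal.mem_iInf.2 fun k => key k h
  rwa [Ideal.iInf_pow_eq_bot_of_isLocalRing _ (maximalIdeal.isMaximal B).ne_top, Ideal.mem_bot,
    sub_eq_zero] at h3

/-- two maps which agree modulo a prime on the generators agree modulo the prime -/
theorem ext_mod {τ : Type} [Fintype τ] (η : Ideal (MvPowerSeries σ F)) [η.IsPrime]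
    (f g : MvPowerSeries τ F →+* MvPowerSeries σ F) (hC : ∀ a, f (C a) = g (C a))
    (hX : ∀ i, f (X i) - g (X i) ∈ η) (hm : ∀ i, constantCoeff (f (X i)) = 0)
    (h : MvPowerSeries τ F) : f h - g h ∈ η := by
  have hloc : IsLocalRing (MvPowerSeries σ F ⧸ η) :=
    IsLocalRing.of_surjective' (Ideal.Quotient.mk η) Ideal.Quotient.mk_surjective
  rw [← Ideal.Quotient.eq]
  refine ext_loc ((Ideal.Quotient.mk η).comp f) ((Ideal.Quotient.mk η).comp g)
    (fun a => by rw [RingHom.comp_apply, RingHom.comp_apply, hC])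
    (fun i => Ideal.Quotient.eq.2 (hX i)) (fun i => ?_) h
  exact ((CA.mem_max_iff (Ideal.Quotient.mk η) Ideal.Quotient.mk_surjective).trans
    CA.mem_max_power).2 (hm i)

/-- substitution of series without constant term -/
noncomputable def sb (a : σ → MvPowerSeries σ F) (ha : ∀ i, constantCoeff (a i) = 0) :
    MvPowerSeries σ F →+* MvPowerSeries σ F :=
  (substAlgHom (R := F) (hasSubst_of_constantCoeff_zero ha)).toRingHom

theorem sb_X (a : σ → MvPowerSeries σ F) (ha : ∀ i, constantCoeff (a i) = 0) (i : σ) :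
    sb a ha (X i) = a i := substAlgHom_X _ i

theorem sb_C (a : σ → MvPowerSeries σ F) (ha : ∀ i, constantCoeff (a i) = 0) (c : F) :
    sb a ha (C c) = C c :=
  (substAlgHom (R := F) (hasSubst_of_constantCoeff_zero ha)).commutes c

omit [Fintype σ] in
theorem two_ps [CharP F 2] : (2 : MvPowerSeries σ F) = 0 := by
  have h3 : ((2 : ℕ) : F) = 0 := CharP.cast_eq_zero F 2
  have h4 := congrArg (C (σ := σ) (R := F)) h3
  rwa [map_natCast, map_zero] at h4

/-- squaring -/
noncomputable def sqr {A : Type} [CommRing A] (h2 : (2 : A) = 0) : A →+* A where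
  toFun x := x ^ 2
  map_one' := one_pow 2
  map_mul' x y := mul_pow x y 2
  map_zero' := by simp
  map_add' x y := by linear_combination (x * y) * h2

theorem sqr_apply {A : Type} [CommRing A] (h2 : (2 : A) = 0) (x : A) : sqr h2 x = x ^ 2 := rfl

theorem two_fld [CharP F 2] : (2 : F) = 0 := by
  exact_mod_cast CharP.cast_eq_zero F 2

/-- semilinear substitution -/
noncomputable def th [CharP F 2] (a : σ → MvPowerSeries σ F)
    (ha : ∀ i, constantCoeff (a i) = 0) : MvPowerSeries σ F →+* MvPowerSeries σ F :=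
  (sb a ha).comp (MvPowerSeries.map (sqr two_fld))

theorem th_X [CharP F 2] (a : σ → MvPowerSeries σ F) (ha : ∀ i, constantCoeff (a i) = 0)
    (i : σ) : th a ha (X i) = a i := by
  rw [th, RingHom.comp_apply, map_X, sb_X]

theorem th_C [CharP F 2] (a : σ → MvPowerSeries σ F) (ha : ∀ i, constantCoeff (a i) = 0)
    (c : F) : th a ha (C c) = C c ^ 2 := by
  rw [th, RingHom.comp_apply, map_C, sb_C, sqr_apply, map_pow]

/-- series vanishing at the origin together with one derivative -/
def dId (j : σ) : Ideal (MvPowerSeries σ F) where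
  carrier := {g | constantCoeff g = 0 ∧ constantCoeff (pderiv F j g) = 0}
  zero_mem' := by simp
  add_mem' := fun {x y} hx hy => ⟨by rw [map_add, hx.1, hy.1, add_zero],
    by rw [map_add, map_add, hx.2, hy.2, add_zero]⟩
  smul_mem' := fun c x hx => ⟨by rw [smul_eq_mul, map_mul, hx.1, mul_zero], by
    rw [smul_eq_mul, Derivation.leibniz, smul_eq_mul, smul_eq_mul, map_add, map_mul, map_mul,
      hx.1, hx.2, mul_zero, zero_mul, add_zero]⟩

end ps

theorem eq_of_dim {A : Type} [CommRing A] {P Q : Ideal A} (hQ : Q.IsPrime) (h : Q ≤ P) {d : ℕ}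
    (h1 : ringKrullDim (A ⧸ Q) ≤ d) (h2 : (d : WithBot ℕ∞) ≤ ringKrullDim (A ⧸ P)) : Q = P := by
  by_contra hne
  have h3 := (CA.dimGE_succ hQ (lt_of_le_of_ne h hne) h2).trans h1
  have h4 : d + 1 ≤ d := by exact_mod_cast h3
  omega

/-- the Frobenius trick -/
theorem frob_trick {A : Type} [CommRing A] (θ ρ : A →+* A) (η 𝔮 : Ideal A) [hη : η.IsPrime]
    (h𝔮 : 𝔮.IsPrime) (h1 : ∀ g, ρ (θ g) - g ^ 2 ∈ η) (h2 : 𝔮 ≤ η.comap ρ) {d : ℕ}
    (hd : ringKrullDim (A ⧸ 𝔮) ≤ d) :
    ringKrullDim (A ⧸ η) ≤ d ∧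
      ((d : WithBot ℕ∞) ≤ ringKrullDim (A ⧸ η) → η = 𝔮.comap θ) := by
  have key : ∀ p : Ideal A, p.IsPrime → η ≤ p → ∀ g, g ∈ p ↔ ρ (θ g) ∈ p := by
    intro p hp hle g
    constructor
    · intro hg
      have := p.add_mem (hle (h1 g)) (p.pow_mem_of_mem hg 2 (by norm_num))
      rwa [sub_add_cancel] at this
    · intro hg
      have := p.sub_mem hg (hle (h1 g))
      rw [sub_sub_cancel] at this
      exact hp.mem_of_pow_mem 2 this
  have h3 : ringKrullDim (A ⧸ η) ≤ ringKrullDim (A ⧸ η.comap ρ) := by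
    rw [ringKrullDim_quotient, ringKrullDim_quotient]
    refine Order.krullDim_le_of_strictMono
      (fun p => ⟨PrimeSpectrum.comap ρ p.1, fun g hg => p.2 hg⟩) fun p q hpq => ?_
    refine lt_of_le_of_ne (fun g hg => hpq.le hg) fun he => hpq.not_ge fun g hg => ?_
    have h4 : p.1.asIdeal.comap ρ = q.1.asIdeal.comap ρ :=
      congrArg (fun z => z.1.asIdeal) he
    have h5 : θ g ∈ q.1.asIdeal.comap ρ := (key _ q.1.2 q.2 g).1 hg
    rw [← h4] at h5
    exact (key _ p.1.2 p.2 g).2 h5
  have h4 : ringKrullDim (A ⧸ η.comap ρ) ≤ ringKrullDim (A ⧸ 𝔮) :=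
    ringKrullDim_le_of_surjective (Ideal.Quotient.factor h2) (Ideal.Quotient.factor_surjective h2)
  refine ⟨h3.trans (h4.trans hd), fun h5 => ?_⟩
  rw [eq_of_dim h𝔮 h2 hd (h5.trans h3)]
  ext g
  exact key η hη le_rfl g

end Vale.Agent.P022D.Rl
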