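import Vale.Agent.P022D.Rl.Defs
import Vale.Agent.P022D.Rl.Fr

/-!
# P022: the components of the special fibre
-/

open IsLocalRing MvPowerSeries

noncomputable section

namespace Vale.Agent.P022D.Rl

/-- index types for good blocks and tame blocks together -/
def tt {β : Type} (τ : β → Type) (Γ K : Type) : β ⊕ Γ → Type
  | .inl b => τ b
  | .inr _ => K

instance ttFin {β : Type} (τ : β → Type) (Γ K : Type) [∀ b, Fintype (τ b)] [Fintype K] :
    ∀ b, Fintype (tt τ Γ K b)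
  | .inl b => inferInstanceAs (Fintype (τ b))
  | .inr _ => inferInstanceAs (Fintype K)

theorem card_tt {β : Type} (τ : β → Type) (Γ : Type) [Fintype β] [Fintype Γ]
    [∀ b, Fintype (τ b)] :
    Fintype.card (Σ b, tt τ Γ (Fin 4) b) = Fintype.card (Σ b, τ b) + 4 * Fintype.card Γ := by
  rw [Fintype.card_sigma, Fintype.card_sigma, Fintype.sum_sum_type]
  congr 1
  have h : ∀ γ : Γ, Fintype.card (tt τ Γ (Fin 4) (.inr γ)) = 4 := fun _ => Fintype.card_fin 4
  simp [h, mul_comm]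

theorem eqU_map {A B : Type} [CommRing A] [CommRing B] (φ : A →+* B)
    (T : Matrix (Fin 2) (Fin 2) A) (i : Fin 4) : eqU (T.map φ) i = φ (eqU T i) := by
  fin_cases i <;> simp [eqU]

theorem eqN_map {A B : Type} [CommRing A] [CommRing B] (φ : A →+* B)
    (Φ T : Matrix (Fin 2) (Fin 2) A) (i : Fin 4) :
    eqN (Φ.map φ) (T.map φ) i = φ (eqN Φ T i) := by
  fin_cases i <;> simp [eqN]

theorem mP_map {R S σ σ' : Type} [CommRing R] [CommRing S]
    (φ : MvPowerSeries σ R →+* MvPowerSeries σ' S) (ψ : R → S) (x : Fin 8 → σ) (y : Fin 8 → σ')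
    (hC : ∀ a, φ (C a) = C (ψ a)) (hX : ∀ i, φ (X (x i)) = X (y i)) (s b : R) :
    (mP x s b).map φ = mP y (ψ s) (ψ b) := by
  ext1 i j
  fin_cases i <;> fin_cases j <;> simp [mP, hC, hX]

theorem mT_map {R S σ σ' : Type} [CommRing R] [CommRing S]
    (φ : MvPowerSeries σ R →+* MvPowerSeries σ' S) (ψ : R → S) (x : Fin 8 → σ) (y : Fin 8 → σ')
    (hC : ∀ a, φ (C a) = C (ψ a)) (hX : ∀ i, φ (X (x i)) = X (y i)) (n : R) :
    (mT x n).map φ = mT y (ψ n) := by
  ext1 i j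
  fin_cases i <;> fin_cases j <;> simp [mT, hC, hX]

namespace Dat

variable {F σ β Γ : Type} {τ ι : β → Type} [Field F] (D : Dat F σ β Γ τ ι)

/-- all the variables of all the blocks -/
def ee : (Σ b, tt τ Γ (Fin 8) b) ↪ σ where
  toFun
    | ⟨.inl b, t⟩ => D.e (.inl ⟨b, t⟩)
    | ⟨.inr γ, i⟩ => D.e (.inr (γ, i))
  inj' := by
    rintro ⟨b | γ, t⟩ ⟨b' | γ', t'⟩ h
    · have h1 : (⟨b, t⟩ : Σ b, τ b) = ⟨b', t'⟩ := Sum.inl.inj (D.e.injective h)
      cases h1
      rfl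
    · exact absurd (D.e.injective h) Sum.inl_ne_inr
    · exact absurd (D.e.injective h) Sum.inr_ne_inl
    · have h1 : ((γ, t) : Γ × Fin 8) = (γ', t') := Sum.inr.inj (D.e.injective h)
      cases h1
      rfl

/-- all the equations of all the blocks -/
def ff (g : Γ → Fin 4 → MvPowerSeries (Fin 8) F) :
    ∀ b, tt ι Γ (Fin 4) b → MvPowerSeries (tt τ Γ (Fin 8) b) F
  | .inl b => D.f b
  | .inr γ => g γ

theorem x_inj {γ γ' : Γ} {i i' : Fin 8} (h : D.x γ i = D.x γ' i') : γ = γ' ∧ i = i' :=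
  Prod.mk.inj (Sum.inr.inj (D.e.injective h))

/-- the variables of one tame block -/
def xe (γ : Γ) : Fin 8 ↪ σ := ⟨D.x γ, fun _ _ h => (D.x_inj h).2⟩

/-- the inclusion of the ring of one tame block -/
def rn (γ : Γ) : MvPowerSeries (Fin 8) F →+* MvPowerSeries σ F :=
  (rename (R := F) (D.xe γ)).toRingHom

theorem rn_X (γ : Γ) (i : Fin 8) : D.rn γ (X i) = X (D.x γ i) := rename_X (D.xe γ) i

theorem rn_C (γ : Γ) (a : F) : D.rn γ (C a) = C a := rename_C (D.xe γ) a

theorem eqs_inl (g : Γ → Fin 4 → MvPowerSeries (Fin 8) F) (b : β) (i : ι b) :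
    CA.eqs D.ee (D.ff g) ⟨.inl b, i⟩ = CA.eqs D.eg D.f ⟨b, i⟩ := rfl

theorem eqs_inr (g : Γ → Fin 4 → MvPowerSeries (Fin 8) F) (γ : Γ) (i : Fin 4) :
    CA.eqs D.ee (D.ff g) ⟨.inr γ, i⟩ = D.rn γ (g γ i) := rfl

theorem span_le (g : Γ → Fin 4 → MvPowerSeries (Fin 8) F) {K : Ideal (MvPowerSeries σ F)}
    (h1 : ∀ b i, CA.eqs D.eg D.f ⟨b, i⟩ ∈ K) (h2 : ∀ γ i, D.rn γ (g γ i) ∈ K) :
    Ideal.span (Set.range (CA.eqs D.ee (D.ff g))) ≤ K := by
  rw [Ideal.span_le]
  rintro _ ⟨⟨b | γ, i⟩, rfl⟩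
  · exact h1 b i
  · exact h2 γ i

theorem rn_U (γ : Γ) (i : Fin 4) : D.rn γ (eqU (mT id (D.n γ)) i) = eqU (D.T γ) i := by
  rw [← eqU_map, mT_map (D.rn γ) id id (D.x γ) (D.rn_C γ) (D.rn_X γ)]
  rfl

theorem rn_N (γ : Γ) (i : Fin 4) :
    D.rn γ (eqN (mP id (D.s γ) (D.b γ)) (mT id (D.n γ)) i) = eqN (D.Φ γ) (D.T γ) i := by
  rw [← eqN_map, mT_map (D.rn γ) id id (D.x γ) (D.rn_C γ) (D.rn_X γ),
    mP_map (D.rn γ) id id (D.x γ) (D.rn_C γ) (D.rn_X γ)]
  rfl

theorem rn_N0 (γ : Γ) (i : Fin 4) :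
    D.rn γ (eN0 id (D.b γ) (D.n γ) i) = eN0 (D.x γ) (D.b γ) (D.n γ) i := by
  fin_cases i <;> simp [eN0, rn_X, rn_C]

open Classical in
/-- the block of a diagonal variable of a tame matrix -/
def c (j : σ) : Option Γ :=
  if h : ∃ γ, j = D.x γ 4 ∨ j = D.x γ 7 then some h.choose else none

theorem c_some {j : σ} {γ : Γ} : D.c j = some γ ↔ j = D.x γ 4 ∨ j = D.x γ 7 := by
  unfold c
  split_ifs with h
  · have h1 := h.choose_spec
    rw [Option.some.injEq]
    refine ⟨fun h2 => h2 ▸ h1, fun h2 => ?_⟩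
    rcases h1 with h1 | h1 <;> rcases h2 with h2 | h2 <;> exact (D.x_inj (h1.symm.trans h2)).1
  · exact ⟨False.elim, fun h2 => absurd ⟨γ, h2⟩ h⟩

theorem c_none {γ : Γ} {i : Fin 8} (h4 : i ≠ 4) (h7 : i ≠ 7) : D.c (D.x γ i) = none := by
  rw [Option.eq_none_iff_forall_ne_some]
  intro γ' h
  rcases D.c_some.1 h with h | h
  · exact h4 (D.x_inj h).2
  · exact h7 (D.x_inj h).2

theorem c_eg (b : β) (t : τ b) : D.c (CA.emb D.eg b t) = none := by
  rw [Option.eq_none_iff_forall_ne_some]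
  intro γ' h
  rcases D.c_some.1 h with h | h <;> exact Sum.inl_ne_inr (D.e.injective h)

variable [Fintype σ]

/-- kill the diagonal variables of the tame matrices -/
def ρ : MvPowerSeries σ F →+* MvPowerSeries σ F :=
  sb (fun j => (D.c j).elim (X j) fun _ => 0) fun j => by cases D.c j <;> simp

theorem ρ_C (a : F) : D.ρ (C a) = C a := sb_C _ _ a

theorem ρ_none {j : σ} (h : D.c j = none) : D.ρ (X j) = X j := by rw [ρ, sb_X, h]; rfl

theorem ρ_some {j : σ} {γ : Γ} (h : D.c j = some γ) : D.ρ (X j) = 0 := by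
  rw [ρ, sb_X, h]; rfl

theorem ρ_x (γ : Γ) (i : Fin 8) :
    D.ρ (X (D.x γ i)) = if i = 4 ∨ i = 7 then 0 else X (D.x γ i) := by
  split_ifs with h
  · refine D.ρ_some (γ := γ) (D.c_some.2 ?_)
    rcases h with rfl | rfl
    · exact Or.inl rfl
    · exact Or.inr rfl
  · exact D.ρ_none (D.c_none (fun h1 => h (Or.inl h1)) fun h1 => h (Or.inr h1))

variable [CharP F 2]

/-- the Frobenius of the special fibre, written on the cover -/
def θ : MvPowerSeries σ F →+* MvPowerSeries σ F :=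
  th (fun j => (D.c j).elim (X j ^ 2) fun γ => (C (D.n γ) + X (D.x γ 5)) * X (D.x γ 6))
    fun j => by cases D.c j <;> simp

theorem θ_C (a : F) : D.θ (C a) = C a ^ 2 := th_C _ _ a

theorem θ_none {j : σ} (h : D.c j = none) : D.θ (X j) = X j ^ 2 := by rw [θ, th_X, h]; rfl

theorem θ_some {j : σ} {γ : Γ} (h : D.c j = some γ) :
    D.θ (X j) = (C (D.n γ) + X (D.x γ 5)) * X (D.x γ 6) := by rw [θ, th_X, h]; rfl

open Classical in
/-- equations of the cover of type `J` -/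
def g0 (J : Γ → Prop) (γ : Γ) : Fin 4 → MvPowerSeries (Fin 8) F :=
  if J γ then eN0 id (D.b γ) (D.n γ) else eqU (mT id (D.n γ))

open Classical in
/-- equations of the component of type `J` -/
def g1 (J : Γ → Prop) (γ : Γ) : Fin 4 → MvPowerSeries (Fin 8) F :=
  if J γ then eqN (mP id (D.s γ) (D.b γ)) (mT id (D.n γ)) else eqU (mT id (D.n γ))

/-- the prime ideal of the cover -/
def q0 (J : Γ → Prop) : Ideal (MvPowerSeries σ F) :=
  Ideal.span (Set.range (CA.eqs D.ee (D.ff (D.g0 J))))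

variable [Fintype β] [Fintype Γ] [∀ b, Fintype (τ b)] [∀ b, Fintype (ι b)]

theorem q0_prime (hB : BLK) (hc : ∀ b i, constantCoeff (D.f b i) = 0)
    (hb : ∀ b, CA.BlkPt (D.f b)) (J : Γ → Prop) (hJ : ∀ γ, ¬ J γ → D.n γ = 0) :
    ∃ d : ℕ, d + Fintype.card (Σ b, ι b) + 4 * Fintype.card Γ = Fintype.card σ ∧
      (D.q0 J).IsPrime ∧ ringKrullDim (MvPowerSeries σ F ⧸ D.q0 J) = d := by
  obtain ⟨d, h1, h2, h3, -⟩ := CA.dom_blocks D.ee (D.ff (D.g0 J)) (by
    rintro (b | γ) i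
    · exact hc b i
    · change constantCoeff (D.g0 J γ i) = 0
      unfold g0
      split_ifs with h
      · fin_cases i <;> simp [eN0]
      · fin_cases i <;> simp [eqU, mT, hJ γ h]) (by
    rintro (b | γ)
    · exact hb b
    · change CA.BlkPt (D.g0 J γ)
      unfold g0
      split_ifs with h
      · exact (hB F _ _).2
      · exact (hB F (D.b γ) _).1)
  rw [card_tt, ← add_assoc] at h1
  exact ⟨d, h1, h2, h3⟩

omit [Fintype β] [Fintype Γ] [∀ b, Fintype (ι b)] in
theorem frob (J : Γ → Prop) (h𝔮 : (D.q0 J).IsPrime) {d : ℕ}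
    (hd : ringKrullDim (MvPowerSeries σ F ⧸ D.q0 J) = d) (η : Ideal (MvPowerSeries σ F))
    [η.IsPrime] (hη : ∀ p, CA.eqs D.ee (D.ff (D.g1 J)) p ∈ η) :
    ringKrullDim (MvPowerSeries σ F ⧸ η) ≤ d ∧
      ((d : WithBot ℕ∞) ≤ ringKrullDim (MvPowerSeries σ F ⧸ η) → η = (D.q0 J).comap D.θ) := by
  have h2 : (2 : MvPowerSeries σ F) = 0 := two_ps
  have hN : ∀ γ, J γ → ∀ i, eqN (D.Φ γ) (D.T γ) i ∈ η := fun γ h i => by
    have := hη ⟨.inr γ, i⟩
    rwa [eqs_inr, g1, if_pos h, rn_N] at this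
  have hU : ∀ γ, ¬ J γ → ∀ i, eqU (D.T γ) i ∈ η := fun γ h i => by
    have := hη ⟨.inr γ, i⟩
    rwa [eqs_inr, g1, if_neg h, rn_U] at this
  have hk : ∀ γ, X (D.x γ 4) + X (D.x γ 7) ∈ η ∧
      X (D.x γ 4) ^ 2 + (C (D.n γ) + X (D.x γ 5)) * X (D.x γ 6) ∈ η := by
    intro γ
    by_cases h : J γ
    · have a0 := hN γ h 0
      have a2 := hN γ h 2
      simp only [eqN, T, mT, Matrix.of_apply, Matrix.cons_val', Matrix.cons_val_zero,
        Matrix.cons_val_one, Matrix.cons_val_fin_one, Matrix.cons_val, add_sub_cancel_left] at a0 a2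
      refine ⟨?_, a2⟩
      convert a0 using 1
      linear_combination -h2
    · have a0 := hU γ h 0
      have a2 := hU γ h 2
      have a3 := hU γ h 3
      simp only [eqU, T, mT, Matrix.of_apply, Matrix.cons_val', Matrix.cons_val_zero,
        Matrix.cons_val_one, Matrix.cons_val_fin_one, Matrix.cons_val,
        add_sub_cancel_left] at a0 a2 a3
      exact ⟨η.add_mem a0 a3, η.add_mem (η.pow_mem_of_mem a0 2 (by norm_num))
        (η.mul_mem_left _ a2)⟩
  refine frob_trick D.θ D.ρ η _ h𝔮 (fun g => ?_) ?_ hd.le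
  · refine ext_mod η (D.ρ.comp D.θ) (sqr h2) (fun a => ?_) (fun j => ?_) (fun j => ?_) g
    · rw [RingHom.comp_apply, θ_C, map_pow, ρ_C, sqr_apply]
    · rw [RingHom.comp_apply, sqr_apply]
      cases hj : D.c j with
      | none => rw [D.θ_none hj, map_pow, D.ρ_none hj, sub_self]; exact η.zero_mem
      | some γ =>
        rw [D.θ_some hj, map_mul, map_add, ρ_C, ρ_x, ρ_x, if_neg (by decide), if_neg (by decide)]
        rcases D.c_some.1 hj with rfl | rfl
        · convert (hk γ).2 using 1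
          linear_combination (-X (D.x γ 4) ^ 2) * h2
        · convert η.add_mem (hk γ).2 (η.pow_mem_of_mem (hk γ).1 2 (by norm_num)) using 1
          linear_combination (-X (D.x γ 4) ^ 2 - X (D.x γ 7) ^ 2 - X (D.x γ 4) * X (D.x γ 7)) * h2
    · rw [RingHom.comp_apply]
      cases hj : D.c j with
      | none => rw [D.θ_none hj, map_pow, D.ρ_none hj]; simp
      | some γ =>
        rw [D.θ_some hj, map_mul, map_add, ρ_C, ρ_x, ρ_x, if_neg (by decide), if_neg (by decide)]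
        simp
  · refine D.span_le _ (fun b i => ?_) fun γ i => ?_
    · have h3 := ext_mod η (D.ρ.comp (rename (R := F) (CA.emb D.eg b)).toRingHom)
        (rename (R := F) (CA.emb D.eg b)).toRingHom (fun a => by
          change D.ρ (rename _ (C a)) = rename _ (C a)
          rw [rename_C, ρ_C]) (fun t => by
          change D.ρ (rename _ (X t)) - rename _ (X t) ∈ η
          rw [rename_X, D.ρ_none (D.c_eg b t), sub_self]
          exact η.zero_mem) (fun t => by
          change constantCoeff (D.ρ (rename _ (X t))) = 0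
          rw [rename_X, D.ρ_none (D.c_eg b t), constantCoeff_X]) (D.f b i)
      have h4 : D.ρ (CA.eqs D.eg D.f ⟨b, i⟩) - CA.eqs D.eg D.f ⟨b, i⟩ +
          CA.eqs D.eg D.f ⟨b, i⟩ ∈ η := η.add_mem h3 (hη ⟨.inl b, i⟩)
      rwa [sub_add_cancel] at h4
    · change D.ρ (D.rn γ (D.g0 J γ i)) ∈ η
      unfold g0
      split_ifs with h
      · rw [rn_N0]
        have a1 := hN γ h 1
        have a3 := hN γ h 3
        simp only [eqN, T, mT, Φ, mP, Matrix.of_apply, Matrix.cons_val', Matrix.cons_val_zero,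
          Matrix.cons_val_one, Matrix.cons_val_fin_one, Matrix.cons_val] at a1 a3
        fin_cases i
        · simp [eN0, ρ_x]
        · simp [eN0, ρ_x]
        · simp only [eN0, ρ_x, Fin.reduceFinMk, Matrix.cons_val, map_add, Fin.reduceEq, or_self,
            if_false]
          convert a1 using 1
          linear_combination (-C (D.s γ)) * h2
        · simpa [eN0, ρ_x, ρ_C] using a3
      · rw [rn_U]
        have a1 := hU γ h 1
        have a2 := hU γ h 2
        fin_cases i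
        · simp [eqU, T, mT, ρ_x]
        · simpa [eqU, T, mT, ρ_x, ρ_C] using a1
        · simpa [eqU, T, mT, ρ_x, ρ_C] using a2
        · simp [eqU, T, mT, ρ_x]

omit [Fintype β] [Fintype Γ] [∀ b, Fintype (ι b)] [∀ b, Fintype (τ b)] in
theorem tr_notMem (hc : ∀ b i, constantCoeff (D.f b i) = 0) (J : Γ → Prop)
    (hJ : ∀ γ, ¬ J γ → D.n γ = 0) (h𝔮 : (D.q0 J).IsPrime) (γ : Γ) (hγ : ¬ J γ) :
    (D.Φ γ).trace ∉ (D.q0 J).comap D.θ := by
  have h2 : (2 : MvPowerSeries σ F) = 0 := two_ps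
  intro h
  have e : D.θ (D.Φ γ).trace = (X (D.x γ 0) + X (D.x γ 3)) ^ 2 := by
    simp only [Φ, mP, Matrix.trace_fin_two_of, map_add, θ_C]
    rw [D.θ_none (D.c_none (by decide) (by decide)), D.θ_none (D.c_none (by decide) (by decide))]
    linear_combination (C (D.s γ) ^ 2 - X (D.x γ 0) * X (D.x γ 3)) * h2
  rw [Ideal.mem_comap, e] at h
  have h3 : D.q0 J ≤ dId (D.x γ 0) := by
    refine D.span_le _ (fun b i => ?_) fun γ' i => ?_
    · refine ⟨by rw [CA.eqs, constantCoeff_rename, hc], ?_⟩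
      rw [CA.eqs, CA.pderiv_rename_out, map_zero]
      rintro ⟨t, ht⟩
      exact Sum.inl_ne_inr (D.e.injective ht)
    · have h4 : constantCoeff (D.g0 J γ' i) = 0 := by
        unfold g0
        split_ifs with h
        · fin_cases i <;> simp [eN0]
        · fin_cases i <;> simp [eqU, mT, hJ γ' h]
      refine ⟨(constantCoeff_rename _ _).trans h4, ?_⟩
      change constantCoeff (pderiv F (D.x γ 0) (rename (D.xe γ') (D.g0 J γ' i))) = 0
      by_cases hg : γ' = γ
      · subst hg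
        have h6 : pderiv F (0 : Fin 8) (D.g0 J γ' i) = 0 := by
          rw [g0, if_neg hγ]
          fin_cases i <;> simp [eqU, mT, pderiv_X_of_ne]
        have h5 := CA.pderiv_rename (D.xe γ') (0 : Fin 8) (D.g0 J γ' i)
        have h7 : D.xe γ' 0 = D.x γ' 0 := rfl
        rw [← h7, h5, h6, constantCoeff_rename, map_zero]
      · rw [CA.pderiv_rename_out, map_zero]
        rintro ⟨t, ht⟩
        exact hg (D.x_inj (i := t) ht).1
  have h4 := (h3 (h𝔮.mem_of_pow_mem 2 h)).2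
  have h5 : D.x γ 3 ≠ D.x γ 0 := fun h => absurd (D.x_inj h).2 (by decide)
  simp [pderiv_X_of_ne h5] at h4

end Dat

end Vale.Agent.P022D.Rl
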