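import Vale.Agent.P022D.Rl.Core
import Vale.Agent.P022D.Rl.Blk

/-!
# P022: the special fibre of the ring of all local coordinates
-/

open IsLocalRing MvPowerSeries

noncomputable section

namespace Vale.Agent.P022D.Rl

theorem ln_le {P A : Type} [CommRing P] [CommRing A] (μ : P →+* A) (hμ : Function.Surjective μ)
    (η : Ideal A) [η.IsPrime] (𝔠 : Ideal P) (hk : RingHom.ker μ ≤ 𝔠) :
    PA.ln (η.comap μ) (P ⧸ 𝔠) ≤ Module.length (Localization.AtPrime η)
      (Localization.AtPrime η ⧸ (𝔠.map μ).map (algebraMap A (Localization.AtPrime η))) := by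
  let B := Localization.AtPrime (η.comap μ)
  let B' := Localization.AtPrime η
  let f : B →+* B' := Localization.localRingHom (η.comap μ) η μ rfl
  let c' : Ideal B' := (𝔠.map μ).map (algebraMap A B')
  have hf : Function.Surjective f := by
    intro y
    obtain ⟨⟨a, s⟩, rfl⟩ := IsLocalization.mk'_surjective η.primeCompl y
    obtain ⟨a, rfl⟩ := hμ a
    obtain ⟨t, ht⟩ := hμ s.1
    refine ⟨IsLocalization.mk' B a (⟨t, fun h => s.2 (ht ▸ h)⟩ : (η.comap μ).primeCompl), ?_⟩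
    rw [Localization.localRingHom_mk']
    congr 1
    exact Subtype.ext ht
  let _ : Algebra B B' := f.toAlgebra
  let g : B →ₗ[B] B' ⧸ c' := Algebra.linearMap B (B' ⧸ c')
  have hg : ∀ x, g x = Ideal.Quotient.mk c' (f x) := fun x => rfl
  have hgs : Function.Surjective g := Ideal.Quotient.mk_surjective.comp hf
  let m0 : LocalizedModule (η.comap μ).primeCompl (P ⧸ 𝔠) := LocalizedModule.mk 1 1
  have hm : ∀ (a : P) (s : (η.comap μ).primeCompl), IsLocalization.mk' B a s • m0 =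
      LocalizedModule.mk (Ideal.Quotient.mk 𝔠 a) s := by
    intro a s
    rw [← Localization.mk_eq_mk'_apply]
    refine (LocalizedModule.mk_smul_mk a 1 s 1).trans ?_
    rw [mul_one, Algebra.smul_def, mul_one]
    rfl
  have hker : LinearMap.ker g ≤ LinearMap.ker (LinearMap.toSpanSingleton B _ m0) := by
    intro x hx
    obtain ⟨⟨a, s⟩, rfl⟩ := IsLocalization.mk'_surjective (η.comap μ).primeCompl x
    rw [LinearMap.mem_ker, hg, Ideal.Quotient.eq_zero_iff_mem, Localization.localRingHom_mk',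
      IsLocalization.mk'_mem_map_algebraMap_iff] at hx
    obtain ⟨t, ht, hx⟩ := hx
    obtain ⟨t, rfl⟩ := hμ t
    rw [← map_mul, ← Ideal.mem_comap, Ideal.comap_map_of_surjective μ hμ,
      ← RingHom.ker_eq_comap_bot, sup_eq_left.2 hk] at hx
    rw [LinearMap.mem_ker, LinearMap.toSpanSingleton_apply, hm, ← LocalizedModule.zero_mk s,
      LocalizedModule.mk_eq]
    refine ⟨⟨t, ht⟩, ?_⟩
    rw [smul_zero, smul_zero, smul_comm, Submonoid.smul_def ⟨t, ht⟩, Algebra.smul_def t,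
      Ideal.Quotient.algebraMap_eq, ← map_mul, Ideal.Quotient.eq_zero_iff_mem.2 hx, smul_zero]
  have hs : Function.Surjective ((LinearMap.ker g).liftQ _ hker) := by
    intro y
    induction y using LocalizedModule.induction_on with
    | h a s =>
      obtain ⟨a, rfl⟩ := Ideal.Quotient.mk_surjective a
      exact ⟨Submodule.Quotient.mk (IsLocalization.mk' B a s), hm a s⟩
  refine (Module.length_le_of_surjective _ hs).trans ?_
  rw [(g.quotKerEquivOfSurjective hgs).length_eq, Module.length_eq_of_surjective (R := B') hf]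

theorem len_max {B : Type} [CommRing B] [IsLocalRing B] {c : Ideal B}
    (h : maximalIdeal B ≤ c) : Module.length B (B ⧸ c) ≤ 1 := by
  refine (len_mono h).trans ?_
  have : IsSimpleModule B (B ⧸ maximalIdeal B) :=
    isSimpleModule_iff_isCoatom.2 (maximalIdeal.isMaximal B).out
  exact (Module.length_eq_one B _).le

namespace Dat

variable {F σ β Γ : Type} {τ ι : β → Type} [Field F] (D : Dat F σ β Γ τ ι) [Fintype σ]
  [CharP F 2]

omit [Fintype σ] [CharP F 2] in
theorem unit_det (γ : Γ) (hs : D.s γ ≠ 0) : IsUnit (D.Φ γ).det := by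
  rw [isUnit_iff_constantCoeff, isUnit_iff_ne_zero]
  simpa [Φ, mP, Matrix.det_fin_two] using hs

omit [Fintype σ] in
theorem tr_max (γ : Γ) : (D.T γ).trace ∈ maximalIdeal (MvPowerSeries σ F) := by
  rw [CA.mem_max_power]
  simp only [T, mT, Matrix.trace_fin_two_of, map_add, map_one, constantCoeff_X, add_zero]
  linear_combination (two_fld (F := F))

omit [Fintype σ] [CharP F 2] in
theorem eqU_mem {η : Ideal (MvPowerSeries σ F)} {γ : Γ} (h : ¬ D.Ram η γ) (i : Fin 4) :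
    eqU (D.T γ) i ∈ η := by
  have h1 : ∀ i j, (D.T γ - 1) i j ∈ η := fun i j => by
    by_contra h2
    exact h ⟨i, j, h2⟩
  fin_cases i
  · simpa [eqU] using h1 0 0
  · simpa [eqU] using h1 0 1
  · simpa [eqU] using h1 1 0
  · simpa [eqU] using h1 1 1

omit [Fintype σ] [CharP F 2] in
theorem n_zero {η : Ideal (MvPowerSeries σ F)} [hη : η.IsPrime] {γ : Γ} (h : ¬ D.Ram η γ) :
    D.n γ = 0 := by
  have h1 := CA.mem_max_power.1 (le_maximalIdeal hη.ne_top (D.eqU_mem h 1))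
  simpa [eqU, T, mT] using h1

omit [Fintype σ] in
theorem off_diag {η : Ideal (MvPowerSeries σ F)} [hη : η.IsPrime] {γ : Γ} (h : D.Ram η γ)
    (hd : (D.T γ).det - 1 ∈ η) (ht : (D.T γ).trace ∈ η) :
    D.T γ 0 1 ∉ η ∨ D.T γ 1 0 ∉ η := by
  have h2 : (2 : MvPowerSeries σ F) = 0 := two_ps
  by_contra hn
  rw [not_or, not_not, not_not] at hn
  rw [Matrix.trace_fin_two] at ht
  rw [Matrix.det_fin_two] at hd
  have h0 : D.T γ 0 0 - 1 ∈ η := by
    refine hη.mem_of_pow_mem 2 ?_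
    convert η.add_mem (η.add_mem hd (η.mul_mem_left (D.T γ 0 0) ht))
      (η.mul_mem_left (D.T γ 0 1) hn.2) using 1
    linear_combination (1 - D.T γ 0 0 - D.T γ 0 0 * D.T γ 1 1) * h2
  obtain ⟨i, j, hij⟩ := h
  apply hij
  fin_cases i <;> fin_cases j
  · simpa using h0
  · simpa using hn.1
  · simpa using hn.2
  · have h3 : D.T γ 1 1 - 1 ∈ η := by
      convert η.sub_mem ht h0 using 1
      linear_combination -h2
    simpa using h3

variable [Fintype β] [Fintype Γ] [∀ b, Fintype (τ b)] [∀ b, Fintype (ι b)]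

theorem core (hc : ∀ b i, constantCoeff (D.f b i) = 0) (hb : ∀ b, CA.BlkPt (D.f b))
    (hs : ∀ γ, D.s γ ≠ 0) (ho : ∀ γ, ∃ u, D.l γ = 2 ^ (D.a γ + 1) * (2 * u + 1) + 1)
    (ho' : ∀ γ, ∃ v, D.l γ + 1 = 2 ^ (D.a' γ + 1) * (2 * v + 1)) (I : Ideal (MvPowerSeries σ F))
    (h1 : ∀ b i, CA.eqs D.eg D.f ⟨b, i⟩ ∈ I) (h2 : ∀ γ, Tame (D.l γ) (D.Φ γ) (D.T γ) I)
    (h3 : ∀ γ, (D.T γ).det - 1 ∈ I) {top : ℕ}
    (htop : top + Fintype.card (Σ b, ι b) + 4 * Fintype.card Γ = Fintype.card σ)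
    (η : Ideal (MvPowerSeries σ F)) [hη : η.IsPrime] (hI : I ≤ η) :
    ringKrullDim (MvPowerSeries σ F ⧸ η) ≤ top ∧
      ((top : WithBot ℕ∞) ≤ ringKrullDim (MvPowerSeries σ F ⧸ η) →
        η = (D.q0 (D.Ram η)).comap D.θ ∧ (∀ γ, ¬ D.Ram η γ → (D.Φ γ).trace ∉ η) ∧
        Module.length (Localization.AtPrime η) (Localization.AtPrime η ⧸
          I.map (algebraMap _ (Localization.AtPrime η))) ≤ (∏ γ, D.m η γ : ℕ)) := by
  classical
  have two : (2 : MvPowerSeries σ F) = 0 := two_ps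
  choose u hu using ho
  choose v hv using ho'
  have hJ : ∀ γ, ¬ D.Ram η γ → D.n γ = 0 := fun γ h => D.n_zero h
  obtain ⟨d, hd, h𝔮, hdim⟩ := D.q0_prime blk hc hb (D.Ram η) hJ
  obtain rfl : d = top := by omega
  have htn : ∀ γ, (D.T γ).trace ^ (2 ^ D.a γ + 2 ^ D.a' γ) ∈ I := fun γ =>
    tr_mem two (D.unit_det γ (hs γ)) (D.tr_max γ) (hu γ) (hv γ) (h2 γ) (h3 γ)
  have ht : ∀ γ, (D.T γ).trace ∈ η := fun γ => hη.mem_of_pow_mem _ (hI (htn γ))
  have hoff : ∀ γ, D.Ram η γ → D.T γ 0 1 ∉ η ∨ D.T γ 1 0 ∉ η := fun γ h =>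
    D.off_diag h (hI (h3 γ)) (ht γ)
  have he : Ideal.span (Set.range (CA.eqs D.ee (D.ff (D.g1 (D.Ram η))))) ≤ η := by
    refine D.span_le _ (fun b i => hI (h1 b i)) fun γ i => ?_
    unfold g1
    split_ifs with h
    · rw [rn_N]
      refine eqN_mem two (hu γ) ((h2 γ).mono hI) (hI (h3 γ)) (ht γ) (fun x x1 x2 => ?_) i
      rcases hoff γ h with h4 | h4
      · exact (hη.mem_or_mem x1).resolve_left h4
      · exact (hη.mem_or_mem x2).resolve_left h4
    · rw [rn_U]
      exact D.eqU_mem h i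
  obtain ⟨k1, k2⟩ := D.frob (D.Ram η) h𝔮 hdim η fun p => he (Ideal.subset_span ⟨p, rfl⟩)
  refine ⟨k1, fun hge => ?_⟩
  have htr : ∀ γ, ¬ D.Ram η γ → (D.Φ γ).trace ∉ η := fun γ h h4 =>
    D.tr_notMem hc (D.Ram η) hJ h𝔮 γ h (k2 hge ▸ h4)
  refine ⟨k2 hge, htr, ?_⟩
  obtain ⟨g, hg, hgen⟩ : ∃ g, g ∉ η ∧ ∀ y ∈ η,
      g * y ∈ Ideal.span (Set.range (CA.eqs D.ee (D.ff (D.g1 (D.Ram η))))) := by
    rcases CA.pt_blocks D.ee (D.ff (D.g1 (D.Ram η))) η
      (fun p => he (Ideal.subset_span ⟨p, rfl⟩)) (by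
        rintro (b | γ)
        · exact Or.inl (hb b)
        · by_cases h : D.Ram η γ
          · right
            have h5 : D.g1 (D.Ram η) γ =
              eqN (mP id (D.s γ) (D.b γ)) (mT id (D.n γ)) := if_pos h
            have h6 := row F (D.s γ) (D.b γ) (D.n γ) _ ((Pdeg.gen η).comp (D.rn γ)) (by
              refine (hoff γ h).imp (fun h7 h8 => h7 ((Pdeg.gen_ker η _).2 ?_))
                fun h7 h8 => h7 ((Pdeg.gen_ker η _).2 ?_)
              · rwa [RingHom.comp_apply, map_add, rn_C, rn_X] at h8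
              · rwa [RingHom.comp_apply, rn_X] at h8)
            rw [← h5] at h6
            exact h6
          · left
            have h5 : D.g1 (D.Ram η) γ = eqU (mT id (D.n γ)) := if_neg h
            have h6 := (blk F (D.b γ) (D.n γ)).1
            rw [← h5] at h6
            exact h6) with h4 | ⟨-, Q, hQ, hQ1, hQ2, g, hg, hgen⟩
    · exfalso
      rw [card_tt, Nat.card_eq_fintype_card, ← hd, add_assoc, ← Nat.cast_ofNat (R := WithBot ℕ∞),
        ← Nat.cast_add] at h4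
      have := CA.nat_le_of_dim hge h4
      omega
    · have h5 := (D.frob (D.Ram η) h𝔮 hdim Q fun p => hQ1 (Ideal.subset_span ⟨p, rfl⟩)).1
      rw [eq_of_dim hQ hQ2 h5 hge] at hgen
      exact ⟨g, hg, hgen⟩
  let B := Localization.AtPrime η
  let φ : MvPowerSeries σ F →+* B := algebraMap _ B
  have hun : ∀ x, x ∉ η → IsUnit (φ x) := fun x hx =>
    IsLocalization.map_units B (⟨x, hx⟩ : η.primeCompl)
  have hmx : ∀ x, x ∈ η → φ x ∈ maximalIdeal B := fun x hx =>
    (IsLocalization.AtPrime.to_map_mem_maximal_iff B η x).2 hx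
  have twoB : (2 : B) = 0 := by rw [← map_ofNat φ 2, two, map_zero]
  let E : Γ → Ideal B := fun γ => Ideal.span (Set.range fun i => φ (D.rn γ (D.g1 (D.Ram η) γ i)))
  have hlen := len_prod Finset.univ (D.m η) E (I.map φ) (fun γ _ c hc => by
    have t1 := ((h2 γ).map φ).mono hc
    have t2 : ((D.T γ).map φ).det - 1 ∈ c := by
      rw [← RingHom.mapMatrix_apply, ← RingHom.map_det, ← map_one φ, ← map_sub]
      exact hc (Ideal.mem_map_of_mem φ (h3 γ))
    have t3 : ∀ M : Matrix (Fin 2) (Fin 2) (MvPowerSeries σ F), (M.map φ).trace = φ M.trace :=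
      fun M => by simp [Matrix.trace_fin_two]
    by_cases h : D.Ram η γ
    · have e1 : E γ = Ideal.span (Set.range (eqN ((D.Φ γ).map φ) ((D.T γ).map φ))) := by
        simp only [E, g1, if_pos h, rn_N]
        simp only [← eqN_map]
      rw [e1, m, if_pos h]
      refine lenN twoB (hu γ) t1 t2 ?_ ((hoff γ h).imp (hun _) (hun _))
      rw [t3, ← map_pow]
      exact hc (Ideal.mem_map_of_mem φ (htn γ))
    · have e1 : E γ = Ideal.span (Set.range (eqU ((D.T γ).map φ))) := by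
        simp only [E, g1, if_neg h, rn_U]
        simp only [← eqU_map]
      rw [e1, m, if_neg h]
      refine lenU twoB (by rw [t3]; exact hun _ (htr γ h)) (fun i j => ?_) (hu γ) t1 t2
      have e2 : (D.T γ).map φ - 1 = (D.T γ - 1).map φ := by
        simp only [← RingHom.mapMatrix_apply, map_sub, map_one]
      rw [e2]
      refine hmx _ ?_
      by_contra h4
      exact h ⟨i, j, h4⟩)
  refine hlen.trans ?_
  have h5 : maximalIdeal B ≤ I.map φ ⊔ Finset.univ.sup E := by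
    rw [← Localization.AtPrime.map_eq_maximalIdeal, Ideal.map_le_iff_le_comap]
    intro y hy
    have h6 : Ideal.span (Set.range (CA.eqs D.ee (D.ff (D.g1 (D.Ram η))))) ≤
        (I.map φ ⊔ Finset.univ.sup E).comap φ :=
      D.span_le _ (fun b i => Ideal.mem_sup_left (Ideal.mem_map_of_mem φ (h1 b i))) fun γ i =>
        Ideal.mem_sup_right (Finset.le_sup (f := E) (Finset.mem_univ γ)
          (Ideal.subset_span ⟨i, rfl⟩))
    have h7 := h6 (hgen y hy)
    rw [Ideal.mem_comap, map_mul] at h7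
    exact (Ideal.unit_mul_mem_iff_mem _ (hun g hg)).1 h7
  have h6 := len_max h5
  calc _ ≤ ((∏ γ, D.m η γ : ℕ) : ℕ∞) * 1 := by gcongr
    _ = _ := mul_one _

end Dat

namespace Dat

variable {O F σ β Γ : Type} {τ ι : β → Type} [CommRing O] [Field F] (D : Dat O σ β Γ τ ι)
  (ψ : O →+* F)

/-- the reduction of the data -/
def red : Dat F σ β Γ τ ι where
  e := D.e
  f b i := MvPowerSeries.map ψ (D.f b i)
  s γ := ψ (D.s γ)
  b γ := ψ (D.b γ)
  n γ := ψ (D.n γ)
  ξ γ := ψ (D.ξ γ)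
  l := D.l
  a := D.a
  a' := D.a'

theorem red_Φ (γ : Γ) : (D.red ψ).Φ γ = (D.Φ γ).map (MvPowerSeries.map ψ) :=
  (mP_map (MvPowerSeries.map ψ) ψ (D.x γ) (D.x γ) (fun a => map_C ψ a) (fun _ => map_X ψ _) _ _).symm

theorem red_T (γ : Γ) : (D.red ψ).T γ = (D.T γ).map (MvPowerSeries.map ψ) :=
  (mT_map (MvPowerSeries.map ψ) ψ (D.x γ) (D.x γ) (fun a => map_C ψ a) (fun _ => map_X ψ _) _).symm

theorem red_Ram (η : Ideal (MvPowerSeries σ F)) :
    (D.red ψ).Ram η = D.Ram (η.comap (MvPowerSeries.map ψ)) := by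
  funext γ
  have e : (D.red ψ).T γ - 1 = (D.T γ - 1).map (MvPowerSeries.map ψ) := by
    rw [red_T]
    simp only [← RingHom.mapMatrix_apply, map_sub, map_one]
  rw [Ram, Ram, e]
  rfl

theorem red_m (η : Ideal (MvPowerSeries σ F)) :
    (D.red ψ).m η = D.m (η.comap (MvPowerSeries.map ψ)) := by
  funext γ
  rw [m, m, red_Ram]
  rfl

end Dat

theorem loc : LOC := by
  intro O F σ β Γ τ ι _ _ _ _ _ _ _ _ D ψ π hD
  have hμ := CA.map_surj (σ := σ) ψ hD.surj
  have hker := CA.ker_map (σ := σ) ψ hD.ker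
  have hc : ∀ b i, constantCoeff ((D.red ψ).f b i) = 0 := fun b i =>
    (constantCoeff_map ψ _).trans (hD.const b i)
  obtain ⟨top, htop, -⟩ := (D.red ψ).q0_prime blk hc hD.blk (fun _ => True) fun γ h => absurd trivial h
  have hcore := (D.red ψ).core hc hD.blk hD.s_ne hD.odd hD.odd'
    ((D.I ⊔ Ideal.span {C π}).map (MvPowerSeries.map ψ)) (fun b i => by
      have e : CA.eqs (D.red ψ).eg (D.red ψ).f ⟨b, i⟩ =
        MvPowerSeries.map ψ (CA.eqs D.eg D.f ⟨b, i⟩) := rename_map _ ψ _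
      rw [e]
      exact Ideal.mem_map_of_mem _ (Ideal.mem_sup_left (Ideal.mem_sup_left
        (Ideal.mem_sup_left (Ideal.subset_span ⟨_, rfl⟩))))) (fun γ => by
      rw [Dat.red_Φ, Dat.red_T]
      exact Tame.map _ fun i j => Ideal.mem_sup_left (Ideal.mem_sup_left
        (Ideal.mem_sup_right (Ideal.subset_span ⟨(γ, i, j), rfl⟩)))) (fun γ => by
      have e : ((D.red ψ).T γ).det - 1 = MvPowerSeries.map ψ ((D.T γ).det - C (D.ξ γ)) := by
        rw [Dat.red_T, ← RingHom.mapMatrix_apply, ← RingHom.map_det, map_sub, map_C, hD.xi,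
          map_one]
      rw [e]
      exact Ideal.mem_map_of_mem _ (Ideal.mem_sup_left (Ideal.mem_sup_right
        (Ideal.subset_span ⟨γ, rfl⟩)))) htop
  have lift : ∀ η : Ideal (MvPowerSeries σ O), η.IsPrime → D.I ⊔ Ideal.span {C π} ≤ η →
      ∃ η₀ : Ideal (MvPowerSeries σ F), η₀.IsPrime ∧ η = η₀.comap (MvPowerSeries.map ψ) ∧
        (D.I ⊔ Ideal.span {C π}).map (MvPowerSeries.map ψ) ≤ η₀ := by
    intro η hη hle
    have hk : RingHom.ker (MvPowerSeries.map (σ := σ) ψ) ≤ η := hker ▸ le_sup_right.trans hle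
    refine ⟨η.map (MvPowerSeries.map ψ), Ideal.map_isPrime_of_surjective hμ hk, ?_,
      Ideal.map_mono hle⟩
    rw [Ideal.comap_map_of_surjective _ hμ, ← RingHom.ker_eq_comap_bot, sup_eq_left.2 hk]
  refine ⟨top, htop, fun η hη hle => ?_⟩
  obtain ⟨η₀, h₀, rfl, hle₀⟩ := lift η hη hle
  obtain ⟨k1, k2⟩ := hcore η₀ hle₀
  rw [ringKrullDim_eq_of_ringEquiv (CA.comapEquiv _ hμ η₀)]
  refine ⟨k1, fun hge => ?_⟩
  obtain ⟨k3, k4, k5⟩ := k2 hge
  refine ⟨fun η' hη' hle' hge' hR => ?_, ?_, fun γ h h4 => ?_⟩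
  · obtain ⟨η₁, h₁, rfl, hle₁⟩ := lift η' hη' hle'
    rw [ringKrullDim_eq_of_ringEquiv (CA.comapEquiv _ hμ η₁)] at hge'
    have k6 := ((hcore η₁ hle₁).2 hge').1
    have e : (D.red ψ).Ram η₀ = (D.red ψ).Ram η₁ := by
      rw [Dat.red_Ram, Dat.red_Ram]
      exact funext fun γ => propext (hR γ)
    rw [e, ← k6] at k3
    rw [k3]
  · rw [← Dat.red_m]
    exact (ln_le _ hμ η₀ _ (hker ▸ le_sup_right)).trans k5
  · refine k4 γ (by rwa [Dat.red_Ram]) ?_
    have e : ((D.red ψ).Φ γ).trace = MvPowerSeries.map ψ (D.Φ γ).trace := by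
      rw [Dat.red_Φ]
      simp [Matrix.trace_fin_two]
    rw [e]
    exact h4

end Vale.Agent.P022D.Rl
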