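import Mathlib

/-!
# P022: the tame relation `Φ T = T ^ l Φ` in characteristic two, identities and lengths
-/

namespace Vale.Agent.P022D.Rl

open Matrix

section mat

variable {R : Type*} [CommRing R]

theorem sq_eq (M : Matrix (Fin 2) (Fin 2) R) (hM : M.det = 1) : M * M = M.trace • M - 1 := by
  rw [det_fin_two] at hM
  ext i j
  fin_cases i <;> fin_cases j <;>
    simp [mul_apply, Fin.sum_univ_two, trace_fin_two] <;>
    first | ring1 | linear_combination -hM

theorem tr_mul_sq (T M : Matrix (Fin 2) (Fin 2) R) (hM : M.det = 1) :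
    (T * M * M).trace = M.trace * (T * M).trace - T.trace := by
  rw [mul_assoc, sq_eq M hM, mul_sub, mul_one, Matrix.mul_smul, trace_sub, trace_smul, smul_eq_mul]

theorem tr_pow_dvd (h2 : (2 : R) = 0) (T : Matrix (Fin 2) (Fin 2) R) (hT : T.det = 1) (k : ℕ) :
    (∃ w, (T ^ (2 * k)).trace = T.trace * w) ∧
      ∃ w, (T ^ (2 * k + 1)).trace = T.trace * (1 + T.trace * w) := by
  induction k with
  | zero =>
    refine ⟨⟨0, ?_⟩, 0, by simp⟩
    rw [mul_zero, pow_zero, trace_one, mul_zero]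
    simpa using h2
  | succ k ih =>
    obtain ⟨⟨w, hw⟩, w', hw'⟩ := ih
    have e1 : (T ^ (2 * (k + 1))).trace = T.trace * ((T ^ (2 * k + 1)).trace - w) := by
      have h := tr_mul_sq (T ^ (2 * k)) T hT
      rw [← pow_succ, ← pow_succ, hw] at h
      rw [show 2 * (k + 1) = 2 * k + 1 + 1 by ring, h]
      ring
    refine ⟨⟨_, e1⟩, (T ^ (2 * k + 1)).trace - w - w', ?_⟩
    have h := tr_mul_sq (T ^ (2 * k + 1)) T hT
    rw [← pow_succ, ← pow_succ, show 2 * k + 1 + 1 = 2 * (k + 1) by ring, e1, hw'] at h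
    rw [h, hw']
    linear_combination (-T.trace) * h2

theorem tr_two_pow (h2 : (2 : R) = 0) (M : Matrix (Fin 2) (Fin 2) R) (hM : M.det = 1) (a : ℕ) :
    (M ^ 2 ^ a).trace = M.trace ^ 2 ^ a := by
  induction a with
  | zero => simp
  | succ a ih =>
    have h := tr_mul_sq 1 (M ^ 2 ^ a) (by rw [det_pow, hM, one_pow])
    rw [one_mul, ← pow_add, ih, trace_one] at h
    rw [pow_succ, mul_two, h, pow_add]
    simp only [Fintype.card_fin, Nat.cast_ofNat]
    linear_combination -h2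

theorem pow_two_pow (h2 : (2 : R) = 0) (M : Matrix (Fin 2) (Fin 2) R) (hM : M.det = 1) (a : ℕ) :
    M ^ 2 ^ (a + 1) = 1 + M.trace ^ 2 ^ a • M ^ 2 ^ a := by
  have h := sq_eq (M ^ 2 ^ a) (by rw [det_pow, hM, one_pow])
  rw [← pow_add, tr_two_pow h2 M hM] at h
  rw [pow_succ, mul_two, h]
  have e : (1 : Matrix (Fin 2) (Fin 2) R) + 1 = 0 := by
    rw [← two_smul R (1 : Matrix (Fin 2) (Fin 2) R), h2, zero_smul]
  rw [sub_eq_add_neg, neg_eq_of_add_eq_zero_left e, add_comm]

theorem one_add_pow (t w : R) (n : ℕ) : ∃ w', (1 + t * w) ^ n = 1 + t * w' := by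
  induction n with
  | zero => exact ⟨0, by simp⟩
  | succ n ih =>
    obtain ⟨w', h⟩ := ih
    exact ⟨w + w' + t * w * w', by rw [pow_succ, h]; ring⟩

/-- the commutator is divisible by a power of the trace -/
theorem comm_eq (h2 : (2 : R) = 0) (Φ T : Matrix (Fin 2) (Fin 2) R) (hT : T.det = 1)
    {l a u : ℕ} (hl : l = 2 ^ (a + 1) * (2 * u + 1) + 1) (h : Φ * T = T ^ l * Φ) :
    ∃ (w : R) (k : ℕ), Φ * T - T * Φ = (T.trace ^ 2 ^ a * (1 + T.trace * w)) • (T ^ k * Φ) := by
  obtain ⟨w, hw⟩ := (tr_pow_dvd h2 T hT u).2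
  obtain ⟨w', hw'⟩ := one_add_pow T.trace w (2 ^ a)
  refine ⟨w', (2 * u + 1) * 2 ^ a + 1, ?_⟩
  have e := pow_two_pow h2 (T ^ (2 * u + 1)) (by rw [det_pow, hT, one_pow]) a
  rw [hw, mul_pow, hw', ← pow_mul, ← pow_mul] at e
  rw [h, hl, pow_succ, mul_comm (2 ^ (a + 1)), e, add_mul, add_mul, one_mul, add_sub_cancel_left,
    smul_mul_assoc, smul_mul_assoc, ← pow_succ]

/-- the trace is nilpotent -/
theorem tr_nil (h2 : (2 : R) = 0) (Φ T : Matrix (Fin 2) (Fin 2) R) (hT : T.det = 1)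
    (hΦ : IsUnit Φ.det) {l a b u v : ℕ} (hl : l = 2 ^ (a + 1) * (2 * u + 1) + 1)
    (hl' : l + 1 = 2 ^ (b + 1) * (2 * v + 1)) (h : Φ * T = T ^ l * Φ) :
    ∃ w, T.trace ^ (2 ^ a + 2 ^ b) * (1 + T.trace * w) = 0 := by
  have e0 : (T ^ l).trace = T.trace := by
    have e : T ^ l = Φ * T * Φ⁻¹ := by rw [h, mul_assoc, mul_nonsing_inv _ hΦ, mul_one]
    rw [e, trace_mul_cycle, nonsing_inv_mul _ hΦ, one_mul]
  obtain ⟨w, hw⟩ := (tr_pow_dvd h2 T hT u).2
  obtain ⟨w', hw'⟩ := (tr_pow_dvd h2 T hT v).2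
  have e1 := tr_two_pow h2 (T ^ (2 * u + 1)) (by rw [det_pow, hT, one_pow]) a
  have e2 := tr_two_pow h2 (T ^ (2 * v + 1)) (by rw [det_pow, hT, one_pow]) b
  have e3 := tr_mul_sq T ((T ^ (2 * u + 1)) ^ 2 ^ a) (by rw [det_pow, det_pow, hT]; simp)
  have n1 : 1 + (2 * u + 1) * 2 ^ a = (2 * v + 1) * 2 ^ b := by
    rw [pow_succ] at hl hl'
    nlinarith
  have n2 : (2 * v + 1) * 2 ^ b + (2 * u + 1) * 2 ^ a = l := by
    rw [pow_succ] at hl hl'
    nlinarith
  have e4 : T * (T ^ (2 * u + 1)) ^ 2 ^ a = (T ^ (2 * v + 1)) ^ 2 ^ b := by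
    rw [← pow_mul, ← pow_mul, ← n1, pow_add, pow_one]
  have e5 : (T ^ (2 * v + 1)) ^ 2 ^ b * (T ^ (2 * u + 1)) ^ 2 ^ a = T ^ l := by
    rw [← pow_mul, ← pow_mul, ← pow_add, n2]
  rw [e4, e5, e0, e1, e2, hw, hw', mul_pow, mul_pow] at e3
  obtain ⟨x, hx⟩ := one_add_pow T.trace w (2 ^ a)
  obtain ⟨y, hy⟩ := one_add_pow T.trace w' (2 ^ b)
  rw [hx, hy] at e3
  refine ⟨x + y + T.trace * x * y, ?_⟩
  rw [pow_add]
  linear_combination -e3 + T.trace * h2

theorem tr_pow_mul (J : Ideal R) (Φ T : Matrix (Fin 2) (Fin 2) R)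
    (hJ : ∀ i j, (T - 1) i j ∈ J) (k : ℕ) : (T ^ k * Φ).trace - Φ.trace ∈ J := by
  induction k generalizing Φ with
  | zero => simp
  | succ k ih =>
    have e : (T ^ (k + 1) * Φ).trace - Φ.trace =
        ((T ^ k * (T * Φ)).trace - (T * Φ).trace) + ((T - 1) * Φ).trace := by
      rw [pow_succ, mul_assoc, sub_mul, one_mul, trace_sub]
      ring
    rw [e]
    refine J.add_mem (ih _) ?_
    rw [trace_fin_two, mul_apply, mul_apply]
    exact J.add_mem (J.sum_mem fun j _ => J.mul_mem_right _ (hJ _ _))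
      (J.sum_mem fun j _ => J.mul_mem_right _ (hJ _ _))

end mat

section len

variable {B : Type*} [CommRing B]

theorem len_mono {c d : Ideal B} (h : c ≤ d) :
    Module.length B (B ⧸ d) ≤ Module.length B (B ⧸ c) :=
  Module.length_le_of_surjective (Submodule.factor h) (Submodule.factor_surjective h)

theorem len_step (c : Ideal B) (x : B) :
    Module.length B (B ⧸ c) ≤ Module.length B (B ⧸ Submodule.comap (LinearMap.mulLeft B x) c) +
      Module.length B (B ⧸ (c ⊔ Ideal.span {x})) := by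
  let f : (B ⧸ Submodule.comap (LinearMap.mulLeft B x) c) →ₗ[B] B ⧸ c :=
    Submodule.mapQ _ c (LinearMap.mulLeft B x) le_rfl
  have hf : Function.Injective f := by
    rw [← LinearMap.ker_eq_bot]
    exact Submodule.ker_liftQ_eq_bot _ _ _ (by rw [LinearMap.ker_comp, Submodule.ker_mkQ])
  refine (Module.length_eq_add_of_exact f (Submodule.factor le_sup_left) hf
    (Submodule.factor_surjective _) ?_).le
  intro y
  obtain ⟨y, rfl⟩ := Submodule.mkQ_surjective c y
  constructor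
  · intro hy
    rw [Submodule.factor_mk, Submodule.mkQ_apply, Submodule.Quotient.mk_eq_zero] at hy
    obtain ⟨p, hp, q, hq, rfl⟩ := Submodule.mem_sup.1 hy
    obtain ⟨z, rfl⟩ := Ideal.mem_span_singleton'.1 hq
    refine ⟨Submodule.mkQ _ z, ?_⟩
    change Submodule.mkQ c (x * z) = _
    rw [Submodule.mkQ_apply, Submodule.mkQ_apply, Submodule.Quotient.eq]
    have e : x * z - (p + z * x) = -p := by ring
    rw [e]
    exact c.neg_mem hp
  · rintro ⟨z, hz⟩
    obtain ⟨z, rfl⟩ := Submodule.mkQ_surjective _ z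
    rw [← hz]
    change Submodule.mkQ (c ⊔ Ideal.span {x}) (x * z) = 0
    rw [Submodule.mkQ_apply, Submodule.Quotient.mk_eq_zero]
    exact Ideal.mem_sup_right (Ideal.mul_mem_right _ _ (Ideal.mem_span_singleton_self x))

/-- a nilpotent element of order `k` costs at most a factor `k` -/
theorem len_nil (x : B) (k : ℕ) (c : Ideal B) (h : x ^ k ∈ c) :
    Module.length B (B ⧸ c) ≤ k * Module.length B (B ⧸ (c ⊔ Ideal.span {x})) := by
  induction k generalizing c with
  | zero =>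
    have e : c = ⊤ := (Ideal.eq_top_iff_one c).2 (by simpa using h)
    subst e
    simp
  | succ k ih =>
    refine (len_step c x).trans ?_
    have h1 := ih (Submodule.comap (LinearMap.mulLeft B x) c) (by
      change x * x ^ k ∈ c
      rwa [← pow_succ'])
    have h2 : Module.length B (B ⧸ (Submodule.comap (LinearMap.mulLeft B x) c ⊔ Ideal.span {x})) ≤
        Module.length B (B ⧸ (c ⊔ Ideal.span {x})) :=
      len_mono (sup_le_sup_right (fun y hy => c.mul_mem_left x hy) _)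
    rw [Nat.cast_succ, add_mul, one_mul]
    exact add_le_add (h1.trans (by gcongr)) le_rfl

/-- one factor for each index -/
theorem len_prod {Λ : Type*} (s : Finset Λ) (m : Λ → ℕ) (E : Λ → Ideal B) (c : Ideal B)
    (h : ∀ i ∈ s, ∀ d, c ≤ d → Module.length B (B ⧸ d) ≤ m i * Module.length B (B ⧸ (d ⊔ E i))) :
    Module.length B (B ⧸ c) ≤ (∏ i ∈ s, m i : ℕ) * Module.length B (B ⧸ (c ⊔ s.sup E)) := by
  classical
  induction s using Finset.induction_on generalizing c with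
  | empty => simpa using len_mono (show c ⊔ (∅ : Finset Λ).sup E ≤ c by simp)
  | insert i s hi ih =>
    have h1 := h i (Finset.mem_insert_self i s) c le_rfl
    have h2 := ih (c ⊔ E i) fun j hj d hd =>
      h j (Finset.mem_insert_of_mem hj) d (le_sup_left.trans hd)
    rw [Finset.prod_insert hi, Finset.sup_insert, ← sup_assoc, Nat.cast_mul, mul_assoc]
    exact h1.trans (by gcongr)

end len

end Vale.Agent.P022D.Rl
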